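import Vale.Agent.P148.R2.H419.Col3

/-!
# P148, row N4W: canonical feet

`rf h x₀ M σ k` : an admissible foot of the gate `k` of the colouring `σ` of the sites which only
depends on the colours in the gate box.
-/

set_option linter.unusedSectionVars false

open Set Relation Metric Function

namespace Vale.Agent.P148.R2.H126

open Vale.Agent.P148.R2.H258 Vale.Agent.P148.R2.H565 Vale.Agent.P148.R2.H419
open Vale.Agent.P148.R2.N (ms nc gateC gbox cell csq ms_pos)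
open Vale.Agent.P148.R2.H592 (HullTri nbr Fc)
open Vale.Agent.P148.R2.H678 (core hub pin pout sd inHub outHub hbox)

variable {X : Set ℂ} {b : ZMod 3 → ℂ}

/-- The sites of colour `c` in `A`. -/
def sit (A : Set ℂ) (σ : X → Bool) (c : Bool) : Set ℂ := {z | z ∈ A ∧ ∃ hz : z ∈ X, σ ⟨z, hz⟩ = c}

/-- Admissible feet of the gate `k`, from the colours in the gate box. -/
def Ft (h : HullTri X b) (x₀ : X) (M : ℕ) (σ : X → Bool) (k : ℕ) (d : Fc X b × ZMod 3) : Prop :=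
  FootOK (HT h x₀) σ true
    (vs (core (nbr X) (X ∩ ball (pin M k) (sd M)) (sit (gbox M k) σ false)))
    (vs (core (nbr X) (X ∩ ball (pout M k) (sd M)) (sit (gbox M k) σ true)))
    (vs (gbox M k)) ⟨b 0, h.mem 0⟩ d

theorem Ft_congr {h : HullTri X b} {x₀ : X} {M : ℕ} {σ σ' : X → Bool} {k : ℕ}
    (hσ : ∀ v : X, v.1 ∈ gbox M k → σ' v = σ v) : Ft h x₀ M σ' k = Ft h x₀ M σ k := by
  have hs : ∀ c, sit (gbox M k) σ' c = sit (gbox M k) σ c := by
    intro c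
    ext z
    constructor
    · rintro ⟨h1, h2, h3⟩
      exact ⟨h1, h2, by rw [← hσ ⟨z, h2⟩ h1]; exact h3⟩
    · rintro ⟨h1, h2, h3⟩
      exact ⟨h1, h2, by rw [hσ ⟨z, h2⟩ h1]; exact h3⟩
  have key : ∀ σ σ' : X → Bool, (∀ v : X, v.1 ∈ gbox M k → σ' v = σ v) →
      (∀ c, sit (gbox M k) σ' c = sit (gbox M k) σ c) → ∀ d, Ft h x₀ M σ' k d → Ft h x₀ M σ k d := by
    rintro σ σ' hσ hs d ⟨h1, h2, h3, y, hy, l, hl, hlm⟩
    rw [hs] at h1 hy
    refine ⟨h1, ?_, h3, y, hy, l, hl, fun g hg => ?_⟩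
    · rw [← hσ _ h3]; exact h2
    · obtain ⟨h4, h5⟩ := hlm g hg
      exact ⟨by rw [← hσ _ h5]; exact h4, h5⟩
  funext d
  exact propext ⟨key σ σ' hσ hs d, key σ' σ (fun v hv => (hσ v hv).symm) (fun c => (hs c).symm) d⟩

theorem Ft_mod (h : HullTri X b) (x₀ : X) (M : ℕ) (σ : X → Bool) (k : ℕ) :
    Ft h x₀ M σ (k % nc M) = Ft h x₀ M σ k := by
  unfold Ft
  rw [H995.pin_mod, H995.pout_mod, N.gbox_mod]

open Classical in
/-- A choice of a dart with the property `P` (a fixed dart if there is none). -/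
noncomputable def chD (h : HullTri X b) (x₀ : X) (P : Fc X b × ZMod 3 → Prop) : Fc X b × ZMod 3 :=
  if hd : ∃ d, P d then hd.choose else
    ((HT_dart h x₀ (x := ⟨b (0 + 1), h.mem _⟩) (y := ⟨b 0, h.mem 0⟩) (h.nbr_hull 0)).choose)

theorem chD_spec {h : HullTri X b} {x₀ : X} {P : Fc X b × ZMod 3 → Prop} (hP : ∃ d, P d) :
    P (chD h x₀ P) := by
  unfold chD
  rw [dif_pos hP]
  exact hP.choose_spec

/-- **The canonical foot of the gate `k`.** -/
noncomputable def rf (h : HullTri X b) (x₀ : X) (M : ℕ) (σ : X → Bool) (k : ℕ) :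
    Fc X b × ZMod 3 := chD h x₀ (Ft h x₀ M σ k)

theorem rf_congr {h : HullTri X b} {x₀ : X} {M : ℕ} {σ σ' : X → Bool} {k : ℕ}
    (hσ : ∀ v : X, v.1 ∈ gbox M k → σ' v = σ v) : rf h x₀ M σ' k = rf h x₀ M σ k := by
  unfold rf
  rw [Ft_congr hσ]

theorem rf_mod (h : HullTri X b) (x₀ : X) (M : ℕ) (σ : X → Bool) (k : ℕ) :
    rf h x₀ M σ (k % nc M) = rf h x₀ M σ k := by
  unfold rf
  rw [Ft_mod]

theorem rf_add (h : HullTri X b) (x₀ : X) (M : ℕ) (σ : X → Bool) (k : ℕ) :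
    rf h x₀ M σ (k + nc M) = rf h x₀ M σ k := by
  rw [← rf_mod, Nat.add_mod_right, rf_mod]

section col

variable {M : ℕ} {Bl₁ Wh₁ Bl₂ Wh₂ : Set ℂ} {s : ℂ → Bool}
variable (hC : Col M X b Bl₁ Wh₁ Bl₂ Wh₂ s)
include hC

theorem sit_in (k : ℕ) : core (nbr X) (X ∩ ball (pin M k) (sd M))
    (sit (gbox M k) (fun v : X => s v.1) false) =
    core (nbr X) (X ∩ ball (pin M k) (sd M)) Wh₁ := by
  refine H678.core_congr fun v hv => ?_
  have hX : v ∈ X := H678.hub_sub_X hv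
  have hEx : v ∈ H678.Ex M X Bl₁ Wh₁ := mem_iUnion.2 ⟨k, Or.inl hv⟩
  have h1 : v ∈ gbox M k := H995.hbox_pin_sub hC.hM k (hC.good.inSub k hv)
  have h2 := hC.cW v hX
  rw [H678.mW, H678.mem_mix_of_mem hEx] at h2
  rw [h2]
  exact ⟨fun h => h.2.2, fun h => ⟨h1, hX, h⟩⟩

theorem sit_out (k : ℕ) : core (nbr X) (X ∩ ball (pout M k) (sd M))
    (sit (gbox M k) (fun v : X => s v.1) true) = oco M X Bl₁ k := by
  refine H678.core_congr fun v hv => ?_
  have hX : v ∈ X := H678.hub_sub_X hv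
  have hEx : v ∈ H678.Ex M X Bl₁ Wh₁ := mem_iUnion.2 ⟨k, Or.inr hv⟩
  have h1 : v ∈ gbox M k := H995.hbox_pout_sub hC.hM k (hC.good.outSub k hv)
  have h2 := hC.cB v hX
  rw [H678.mB, H678.mem_mix_of_mem hEx] at h2
  rw [h2]
  exact ⟨fun h => h.2.2, fun h => ⟨h1, hX, h⟩⟩

/-- **The canonical foot is admissible.** -/
theorem Ft_eq (x₀ : X) (k : ℕ) :
    Ft hC.hull x₀ M (fun v : X => s v.1) k = Foot hC.hull x₀ M Bl₁ Wh₁ s k := by
  unfold Ft Foot
  rw [sit_in hC, sit_out hC]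

theorem rf_foot (x₀ : X) (k : ℕ) :
    Foot hC.hull x₀ M Bl₁ Wh₁ s k (rf hC.hull x₀ M (fun v : X => s v.1) k) := by
  have h1 : ∃ d, Foot hC.hull x₀ M Bl₁ Wh₁ s k d := (hC.hubs x₀).exists_foot k
  have h2 := chD_spec (h := hC.hull) (x₀ := x₀) h1
  unfold rf
  rw [Ft_eq hC]
  exact h2

end col

end Vale.Agent.P148.R2.H126
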