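import Vale.Agent.P148.R2.H126.Win

/-!
# P148, row N4W: energy of the windows

The closing chains of a family of captured excursions with a near end, for a weight which is seen
only in the near window, cost at most the energies of the world with the far sets frozen and of the
world inside the loop.
-/

namespace Vale.Agent.P148.R2.H126

open Function Vale.Agent.P148.R2.H258 Vale.Agent.P148.R2.H871 Vale.Agent.P148.R2.H400
  Vale.Agent.P148.R2.H532 Vale.Agent.P148.R2.H838 Vale.Agent.P148.R2.H203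

variable {V V1 D : Type*} {T : Tri V D} {T1 : Tri V1 D} {π : V → V1} {O : V1}
  {σ : V → Bool} {σ1 : V1 → Bool} {c : ℕ → D} {n : ℕ} {τ : ℕ → ℕ}

/-- The part of a weight on good faces. -/
noncomputable def gp (T1 : Tri V1 D) (Θ : D → ℂ) : D → ℂ := rs (fun d => T1.Good d) Θ

/-- The members of the class of an excursion lie on good faces. -/
theorem good_of_rel [Finite D] (hP1 : T1.Planar) {d e : D} (hd : Start T1 σ1 d)
    (hr : T1.Rel σ1 d e) : T1.Good e := by
  obtain ⟨m, f, hm, hf0, hfm, hs, hij, hrel, hnd⟩ := T1.class_cycle hP1 hd.1 hd.2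
  obtain ⟨i, hi, rfl⟩ := (hrel e).1 hr
  have hmi : T1.Mi σ1 (f i) := ((hrel (f i)).2 ⟨i, hi, rfl⟩).2.1
  refine ⟨?_, ?_, hnd i hi⟩
  · intro hh
    exact hmi.1 (by rw [hh])
  · intro hh
    exact hmi.1 (by rw [hh, hmi.2])

theorem cls_gp [Fintype D] (hP1 : T1.Planar) {d : D} (hd : Start T1 σ1 d) (Θ : D → ℂ) :
    T1.cls σ1 d (gp T1 Θ) = T1.cls σ1 d Θ := by
  classical
  unfold Tri.cls
  apply Finset.sum_congr rfl
  intro e _
  by_cases h : T1.Rel σ1 e d
  · rw [if_pos h, if_pos h]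
    unfold gp rs
    rw [if_pos (good_of_rel hP1 hd (T1.rel_symm h))]
  · rw [if_neg h, if_neg h]

/-- The closing chains of a family of captured excursions. -/
theorem sum_chain_gp {V2 : Type*} {T2 : Tri V2 D} {π2 : V2 → V1} {σ2 : V2 → Bool} [Fintype D]
    (hP2 : T2.Planar) (hP1 : T1.Planar) (hC : Contr T2 T1 π2)
    {S : Finset D} {g : D → D} {L : D → List D} (h : CapFam T2 T1 π2 O σ1 σ2 S g L)
    (hst : ∀ d ∈ S, Start T1 σ1 d) (Θ : D → ℂ) :
    ∑ d ∈ S, ‖((L d).map Θ).sum‖ ^ 2 ≤ 2 * tot T2 σ2 Θ + 2 * tot T1 σ1 (gp T1 Θ) := by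
  have h1 := sum_cls_le_tot S (h.mi hP2 hP1 hC) (h.inj hP2 hP1 hC) Θ
  have h2 : ∑ d ∈ S, ‖T1.cls σ1 d (gp T1 Θ)‖ ^ 2 ≤ tot T1 σ1 (gp T1 Θ) := by
    have h3 := sum_cls_le_tot (T := T1) (σ := σ1) S (fun d hd => (h.cap d hd).mem.1)
      (fun d hd e he hr => start_unique hP1 (h.cap d hd).src (h.cap e he).src (h.cap d hd).apex hr)
      (gp T1 Θ)
    exact h3.trans (tot_rs_le (sat_union S) _)
  have h4 := h1.trans (tot_rs_le (sat_union (T := T2) (σ := σ2) S) Θ)
  calc ∑ d ∈ S, ‖((L d).map Θ).sum‖ ^ 2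
      ≤ ∑ d ∈ S, (2 * ‖T2.cls σ2 d Θ‖ ^ 2 + 2 * ‖T1.cls σ1 d (gp T1 Θ)‖ ^ 2) := by
        apply Finset.sum_le_sum
        intro d hd
        have h5 := (h.cap d hd).cls_eq hP2 hP1 hC Θ
        have h6 : ((L d).map Θ).sum = T2.cls σ2 d Θ + -T1.cls σ1 d (gp T1 Θ) := by
          rw [h5, cls_gp hP1 (hst d hd)]; ring
        rw [h6]
        have := sq_add_le (T2.cls σ2 d Θ) (-T1.cls σ1 d (gp T1 Θ))
        rwa [norm_neg] at this
    _ = 2 * ∑ d ∈ S, ‖T2.cls σ2 d Θ‖ ^ 2 + 2 * ∑ d ∈ S, ‖T1.cls σ1 d (gp T1 Θ)‖ ^ 2 := by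
        rw [Finset.sum_add_distrib, Finset.mul_sum, Finset.mul_sum]
    _ ≤ 2 * tot T2 σ2 Θ + 2 * tot T1 σ1 (gp T1 Θ) := by linarith

variable {ι : Type*} {F : ι → Set V} {r : ι → V} {b1 b2 w : ι} {m1 m2 t2 t1 q : ℕ}

/-- An excursion of the world inside the loop, captured by `J`, whose ends are the vertices
`iy ≤ ix` of the cycle. -/
structure CapEnd (T : Tri V D) (T1 : Tri V1 D) (O : V1) (σ1 : V1 → Bool) (J : Set D) (c : ℕ → D)
    (n q : ℕ) (d g : D) (iy ix : ℕ) : Prop where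
  start : Start T1 σ1 d
  src : T1.src d = O
  cap : Cap T1 J σ1 d
  rel : T1.Rel σ1 d g
  apex : T1.apex g = O
  hq : q ≤ iy
  le : iy ≤ ix
  lt : ix < n
  y : T.apex g = T.src (c iy)
  x : T.src d = T.src (c ix)

/-- **N4W, one colouring.** -/
theorem Win.sum_le [Fintype D] (h : Win T π O σ c n τ F r b1 b2 w m1 m2 t2 t1 q)
    (hP : T.Planar) (hP1 : T1.Planar) (hC : Contr T T1 π) (hinj : InjOff π O) {σ2 : V → Bool}
    (hcol : ∀ v, π v ≠ O → σ v = σ1 (π v)) (hO : σ (T.src (c 0)) = σ1 O)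
    (h2 : ∀ v, (∀ i, v ∉ F i) → σ2 v = σ v) (hb1 : σ2 (r b1) = σ1 O) (hb2 : σ2 (r b2) = σ1 O)
    (hw : σ2 (r w) ≠ σ1 O) {J : Set D} (hJ : ∀ β ∈ J, T.src β ∈ F w)
    {S : Finset D} {g : D → D} {iy ix : D → ℕ}
    (hS : ∀ d ∈ S, CapEnd T T1 O σ1 J c n q d (g d) (iy d) (ix d))
    (hN : ∀ d ∈ S, Near T F b1 b2 c (iy d) ∨ Near T F b1 b2 c (ix d))
    {Θ : D → ℂ} (hΘ : ∀ i, q ≤ i → i < n → (τ i < t2 ∨ t1 ≤ τ i) → Θ (c i) = 0) :
    ∑ d ∈ S, ‖((H659.chain c (iy d) (ix d)).map Θ).sum‖ ^ 2 ≤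
      2 * tot (tmap T (H532.col F r) h.coll.fib) σ2 Θ + 2 * tot T1 σ1 (gp T1 Θ) := by
  classical
  have key : ∀ d, ∃ L : List D, d ∈ S →
      Captured (tmap T (H532.col F r) h.coll.fib) T1 π O σ1 σ2 d (g d) L ∧
      ((H659.chain c (iy d) (ix d)).map Θ).sum = (L.map Θ).sum ∧
      ∀ e ∈ L, ∃ i < n, e = c i := by
    intro d
    by_cases hd : d ∈ S
    · have a := hS d hd
      obtain ⟨j, j', e1, e2, e3, -, e5, e6⟩ := h.captured hC hinj hcol hO h2 hb1 hb2 hw hJ
        a.start a.src a.cap a.rel a.apex a.hq a.le a.lt a.y a.x (hN d hd)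
      refine ⟨_, fun _ => ⟨e6, ?_, ?_⟩⟩
      · rw [chain_append (c := c) (a := iy d) (b := j) (e := ix d) e1 (by omega),
          chain_append (c := c) (a := j) (b := j') (e := ix d) e2 e3]
        rw [List.map_append, List.map_append, List.map_append, List.sum_append, List.sum_append,
          List.sum_append]
        have hz : ((H659.chain c j j').map Θ).sum = 0 := by
          rw [H659.sum_chain]
          apply Finset.sum_eq_zero
          intro i hi
          rw [Finset.mem_Ico] at hi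
          have := a.hq
          have := a.lt
          rcases e5 i (by omega) (by omega) with h7 | h7
          · omega
          · exact hΘ i (by omega) (by omega) h7
        rw [hz, zero_add]
      · intro e he
        have := a.lt
        rcases List.mem_append.1 he with he | he
        · obtain ⟨i, h7, h8, rfl⟩ := H659.mem_chain.1 he
          exact ⟨i, by omega, rfl⟩
        · obtain ⟨i, h7, h8, rfl⟩ := H659.mem_chain.1 he
          exact ⟨i, by omega, rfl⟩
    · exact ⟨[], fun hh => absurd hh hd⟩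
  choose L hL using key
  have hC2 : Contr (tmap T (H532.col F r) h.coll.fib) T1 π := contr_col hC h.coll h.fibF
  have hfam : CapFam (tmap T (H532.col F r) h.coll.fib) T1 π O σ1 σ2 S g L := by
    refine ⟨fun d hd => (hL d hd).1, ?_⟩
    intro d hd e he hbi
    obtain ⟨i, hi, rfl⟩ := (hL d hd).2.2 e he
    obtain ⟨f1, f2, -⟩ := h.ring.fib hi
    apply hbi
    rw [hC.src, hC.tgt, f1, f2]
  have := sum_chain_gp (planar_tmap hP) hP1 hC2 hfam (fun d hd => (hS d hd).start) Θ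
  refine le_trans (le_of_eq ?_) this
  apply Finset.sum_congr rfl
  intro d hd
  rw [(hL d hd).2.1]

end Vale.Agent.P148.R2.H126
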