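import Vale.Agent.P148.R2.H659.Close5

/-!
# P148, row N4W: the windows of the closing chains

`pcq t m` : the piece of the time `m`.  `wnd … σ d` : the windows of the closing chain of the
excursion of `d`: the parts of the chain in the cells next to its two ends.
-/

namespace Vale.Agent.P148.R2.H126

open Function Vale.Agent.P148.R2.H258 Vale.Agent.P148.R2.H871 Vale.Agent.P148.R2.H565
  Vale.Agent.P148.R2.H659

variable {V V1 D : Type*} {T : Tri V D} {T1 : Tri V1 D} {K : ℕ} {t : ℕ → ℕ}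

open Classical in
/-- The piece of the time `m`. -/
noncomputable def pcq (t : ℕ → ℕ) (m : ℕ) : ℕ :=
  if h : ∃ k, t k ≤ m ∧ m < t (k + 1) then h.choose else 0

theorem pcq_eq (ht : ∀ k, t k < t (k + 1)) {m k : ℕ} (h1 : t k ≤ m) (h2 : m < t (k + 1)) :
    pcq t m = k := by
  have h : ∃ k, t k ≤ m ∧ m < t (k + 1) := ⟨k, h1, h2⟩
  unfold pcq
  rw [dif_pos h]
  obtain ⟨h3, h4⟩ := h.choose_spec
  have hm := strictMono_nat_of_lt_succ ht
  have h5 : h.choose < k + 1 := hm.lt_iff_lt.1 (h3.trans_lt h2)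
  have h6 : k < h.choose + 1 := hm.lt_iff_lt.1 (h1.trans_lt h4)
  omega

/-- The part of the closing chain in the cell `k`. -/
noncomputable def wpart [Finite D] (T : Tri V D) (T1 : Tri V1 D) (c : ℕ → D) (n : ℕ)
    (ϑ : D → ℂ) (σ : V1 → Bool) (d : D) : ℂ :=
  ((H400.clH T c n d (H400.lst T1 σ d)).map ϑ).sum

/-- The cells next to the ends of the closing chain. -/
noncomputable def wends [Finite D] (T : Tri V D) (T1 : Tri V1 D) (K : ℕ) (t τ : ℕ → ℕ) (c : ℕ → D)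
    (n : ℕ) (σ : V1 → Bool) (d : D) : Finset ℕ :=
  ends K (pcq t (τ (H400.idx T c n (T.apex (H400.lst T1 σ d)))))
    (pcq t (τ (H400.idx T c n (T.src d))))

/-- **The windows of an excursion.** -/
noncomputable def wnd [Finite D] (T : Tri V D) (T1 : Tri V1 D) (K : ℕ) (t τ : ℕ → ℕ) (c : ℕ → D)
    (n : ℕ) (ϑ : ℕ → D → ℂ) (σ : V1 → Bool) (d : D) : ℝ :=
  6 * ∑ k ∈ wends T T1 K t τ c n σ d, ‖wpart T T1 c n (ϑ k) σ d‖ ^ 2

section val

variable {π : V → V1} {O : V1} {w : V → Bool} {o : D} {n : ℕ} {c : ℕ → D} {τ : ℕ → ℕ}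

/-- The data of the closing chain of an excursion facing the arc `{c 0, …, c (s - 1)}`. -/
theorem chn [Finite D] (hP : T.Planar) (hP1 : T1.Planar) (hC : Contr T T1 π)
    (hinj : H400.InjOff π O) (hF : Feet T w o K t) (hL : Loop T π O w o n c τ) {s : ℕ}
    (hnl : ∀ f, T.tgt f ≠ T.src f) {σ : V1 → Bool} {d : D} (hd : H400.Start T1 σ d)
    (hdO : T1.src d = O) (hFc : H400.Facing T1 (arc T T1 O c s) σ d)
    (hne : (arc T T1 O c s).Nonempty) :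
    ∃ iy ix p q, s ≤ iy ∧ iy ≤ ix ∧ ix < n ∧ t p ≤ τ iy ∧ τ iy < t (p + 1) ∧ t q ≤ τ ix ∧
      τ ix < t (q + 1) ∧ p ≤ q ∧ q < K ∧ T.apex (H400.lst T1 σ d) = T.src (c iy) ∧
      T.src d = T.src (c ix) ∧ wends T T1 K t τ c n σ d = ends K p q ∧
      ∀ Θ : D → ℂ, wpart T T1 c n Θ σ d = ∑ i ∈ Finset.Ico iy ix, Θ (c i) := by
  obtain ⟨iy, ix, p, q, h1, h2, h3, h4, h5, h6, h7, h8, h9, h10, h11, h12⟩ :=
    hL.clH hP hP1 hC hinj hF hnl hd hdO hFc hne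
  refine ⟨iy, ix, p, q, h1, h2, h3, h4, h5, h6, h7, h8, h9, h10, h11, ?_, h12⟩
  unfold wends
  rw [h10, h11, H400.idx_eq hL.ring (by omega), H400.idx_eq hL.ring h3, pcq_eq hF.inc h4 h5,
    pcq_eq hF.inc h6 h7]

/-- **The value of the closing chain**: full cells and windows. -/
theorem val_le [Finite D] (hP : T.Planar) (hP1 : T1.Planar) (hC : Contr T T1 π)
    (hinj : H400.InjOff π O) (hF : Feet T w o K t) (hL : Loop T π O w o n c τ)
    (hM : Main T w o t (c 0)) (h6 : 6 ≤ K) {s : ℕ}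
    (hnl : ∀ f, T.tgt f ≠ T.src f) {σ : V1 → Bool} {d : D} (hd : H400.Start T1 σ d)
    (hdO : T1.src d = O) (hFc : H400.Facing T1 (arc T T1 O c s) σ d)
    (hne : (arc T T1 O c s).Nonempty) {Θ : D → ℂ} {ϑ : ℕ → D → ℂ}
    (hsum : ∀ m < per T w o, Θ ((T.st w)^[m] o) =
      ∑ k ∈ Finset.range K, ϑ k ((T.st w)^[m] o))
    (supp : ∀ k < K, ∀ j < K, ∀ m, t j ≤ m → m < t (j + 1) → ϑ k ((T.st w)^[m] o) ≠ 0 → Nr K j k) :
    ∃ p q, p ≤ q ∧ q < K ∧ ‖wpart T T1 c n Θ σ d‖ ^ 2 ≤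
      2 * ‖∑ k ∈ Finset.Ico (p + 2) (q - 1), sideSum T w o (t (k - 2)) (t (k + 3)) (ϑ k)‖ ^ 2 +
        2 * wnd T T1 K t τ c n ϑ σ d := by
  obtain ⟨iy, ix, p, q, -, h2, h3, h4, h5, e6, h7, h8, h9, -, -, h12, h13⟩ :=
    chn hP hP1 hC hinj hF hL hnl hd hdO hFc hne
  refine ⟨p, q, h8, h9, ?_⟩
  have h14 := hL.value_sq hP hF hM h6 h2 h3 h4 h5 e6 h7 hsum supp
  rw [h13]
  refine h14.trans (le_of_eq ?_)
  unfold wnd
  rw [h12]
  simp only [h13]
  ring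

end val

end Vale.Agent.P148.R2.H126
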