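import Vale.Agent.P148.R2.H126.Inst
import Vale.Agent.P148.R2.H126.Sum
import Vale.Agent.P148.R2.H126.Wn
import Vale.Agent.P148.R2.H532.Av3

/-!
# P148, row N4W: the near window of an arc, one colouring

`BW` : the main cycle `c 0, …, c (n - 1)` of the ring with its times `τ` from the base foot `o` of an arc,
the middle part of the arc between the gates `r` and `r + p`, the near window of the pieces
`r + a, …, r + b - 1`.
-/

set_option linter.unusedSectionVars false

namespace Vale.Agent.P148.R2.H126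

open Function Vale.Agent.P148.R2.H258 Vale.Agent.P148.R2.H871 Vale.Agent.P148.R2.H400
  Vale.Agent.P148.R2.H532 Vale.Agent.P148.R2.H838 Vale.Agent.P148.R2.H203
  Vale.Agent.P148.R2.H565 Vale.Agent.P148.R2.H659

variable {V V1 D : Type*} {T : Tri V D} {T1 : Tri V1 D} {π : V → V1} {O : V1} {s : V → Bool}
  {K : ℕ} {o : D} {t : ℕ → ℕ} {n : ℕ} {c : ℕ → D} {τ : ℕ → ℕ} {X : ℕ → Set V} {N N' : Set V}
  {L r p a b : ℕ}

theorem iter_bk [Finite D] (T : Tri V D) (σ : V → Bool) (o : D) (a n : ℕ) :
    ∃ m, (T.st σ)^[m] ((T.st σ)^[a] o) = (T.st σ)^[n] o := by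
  have hL := per_pos T σ o
  have h1 : a ≤ n + a * per T σ o := by
    have : a * 1 ≤ a * per T σ o := Nat.mul_le_mul_left a hL
    omega
  refine ⟨n + a * per T σ o - a, ?_⟩
  rw [← iterate_add_apply, Nat.sub_add_cancel h1]
  exact iter_mul_per o n a

structure BW (T : Tri V D) (π : V → V1) (O : V1) (s : V → Bool) (K : ℕ) (o : D) (t : ℕ → ℕ)
    (n : ℕ) (c : ℕ → D) (τ : ℕ → ℕ) (X : ℕ → Set V) (N N' : Set V) (L r p a b : ℕ) : Prop where
  feet : Feet T s o K t
  loop : Loop T π O s o n c τ
  main : Main T s o t (c 0)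
  scn : Scn T s K ((T.st s)^[t r] o) (fun k => t (r + k) - t r) X N N' L p a b
  hr : 2 ≤ r
  ra : r + a ≤ K

section bw

variable (h : BW T π O s K o t n c τ X N N' L r p a b)
include h

theorem BW.tK : t K = per T s o := by
  have := h.feet.add 0
  rwa [zero_add, h.feet.zero, zero_add] at this

theorem BW.per0 [Finite D] : per T s (c 0) = per T s o := by
  rw [← h.loop.hit 0 h.loop.ring.pos, per_iter]

/-- Every piece contains a member of the main cycle. -/
theorem BW.mem_piece [Finite D] (hP : T.Planar) {k : ℕ} (hk : 1 ≤ k) (hkK : k < K) :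
    ∃ i < n, t k ≤ τ i ∧ τ i < t (k + 1) := by
  obtain ⟨m, hm⟩ := h.feet.exists_lm hP hk
  obtain ⟨k0, m0, h2, h3⟩ := h.main
  have h4 := T.rel_trans (T.rel_symm h3) (h.feet.rel_lm h2 hm)
  obtain ⟨-, h5, h6, -, -⟩ := hm
  have h7 : t (k + 1) ≤ t K := h.feet.mono (by omega)
  have h8 := h.tK
  obtain ⟨i, hi, hie⟩ := h.loop.all m (by omega) h4
  exact ⟨i, hi, by omega, by omega⟩

theorem BW.tau_mono {i j : ℕ} (hij : i ≤ j) (hj : j < n) : τ i ≤ τ j := by
  rcases hij.lt_or_eq with h1 | h1
  · exact (h.loop.mono _ _ h1 hj).le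
  · rw [h1]

theorem BW.tau0 [Finite D] (hP : T.Planar) : τ 0 < t r := by
  have hK : 1 < K := by have := h.feet.four; omega
  obtain ⟨i, hi, -, h1⟩ := h.mem_piece hP le_rfl hK
  rw [show 1 + 1 = 2 from rfl] at h1
  have h2 := h.tau_mono (Nat.zero_le i) hi
  have h3 : t 2 ≤ t r := h.feet.mono h.hr
  omega

/-- The times from the first member. -/
theorem BW.tm [Finite D] : Tm T s c n (fun i => τ i - τ 0) := by
  have hper := h.per0
  have hit : ∀ i < n, (T.st s)^[τ i - τ 0] (c 0) = c i := by
    intro i hi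
    have h1 := h.tau_mono (Nat.zero_le i) hi
    rw [← h.loop.hit 0 h.loop.ring.pos, ← iterate_add_apply, show τ i - τ 0 + τ 0 = τ i by omega]
    exact h.loop.hit i hi
  refine ⟨fun i hi => ?_, hit, fun i hi => ?_⟩
  · have := h.loop.lt i hi
    rw [hper]
    omega
  · obtain ⟨-, -, m, h1, h2, h3⟩ := h.loop.mem i hi
    have h4 := h.loop.lt i hi
    have h5 : m = τ i - τ 0 := by
      refine (iterate_eq_iterate_iff_of_lt_minimalPeriod (f := T.st s) (x := c 0) h1 ?_).1 ?_
      · change τ i - τ 0 < per T s (c 0)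
        omega
      · rw [hit i hi]; exact h2
    rw [← h5]; exact h3

/-- Sources seen from the first member. -/
theorem BW.sa0 [Finite D] (m : ℕ) : sa T s (c 0) m = sa T s o (m + τ 0) := by
  rw [← h.loop.hit 0 h.loop.ring.pos, sa_add, add_comm]

theorem BW.it0 [Finite D] (m : ℕ) : (T.st s)^[m] (c 0) = (T.st s)^[m + τ 0] o := by
  rw [← h.loop.hit 0 h.loop.ring.pos, ← iterate_add_apply]

/-- The window. -/
theorem BW.win [Finite D] (hP : T.Planar) :
    ∃ q, Win T π O s c n (fun i => τ i - τ 0)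
      (FX T L N ((T.st s)^[t r] o, (T.st s)^[t (r + p)] o) s)
      (rX T L N ((T.st s)^[t r] o, (T.st s)^[t (r + p)] o) s) (some true) (some false) none
      (t r - τ 0) (t (r + p) - τ 0) (t r + tA T L N ((T.st s)^[t r] o) s - τ 0)
      (t r + (per T s o - tB T L N ((T.st s)^[t r] o) s) - τ 0) q ∧
      τ q < t (r + p + 1) := by
  have hS := h.scn
  have h1 := hS.A_ge
  have h2 := hS.A_lt
  have h3 := hS.B_ge
  have h4 := hS.B_le
  have h5 := hS.tJ_eq
  have hp1 := hS.p1
  have hpa := hS.pa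
  have hab := hS.ab
  have hbK := hS.bK
  have hra := h.ra
  have htau := h.tau0 hP
  set A := tA T L N ((T.st s)^[t r] o) s with hA
  set B := tB T L N ((T.st s)^[t r] o) s with hB
  have hper : per T s ((T.st s)^[t r] o) = per T s o := per_iter T s o _
  rw [hper] at h3 h4
  beta_reduce at h1 h2 h3 h4 h5
  have m1 : t r ≤ t (r + p) := h.feet.mono (by omega)
  have m1' : t r < t (r + p) := h.feet.smono (by omega)
  have m2 : t (r + p + 1) ≤ t (r + (a - 1)) := h.feet.mono (by omega)
  have m3 : t (r + a) ≤ t (r + b) := h.feet.mono (by omega)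
  have m4 : t (r + a) ≤ t K := h.feet.mono hra
  have m5 : t (r + p) < t (r + p + 1) := h.feet.inc _
  have m6 : t r < t (r + b) := h.feet.smono (by omega)
  have hKper := h.tK
  have hoo : (T.st s)^[t (r + p) - t r] ((T.st s)^[t r] o) = (T.st s)^[t (r + p)] o := by
    rw [← iterate_add_apply, show t (r + p) - t r + t r = t (r + p) by omega]
  rw [hoo] at h5
  have hFX : FX T L N ((T.st s)^[t r] o, (T.st s)^[t (r + p)] o) s =
      FF T s ((T.st s)^[t r] o) (t (r + p) - t r) A B := by
    unfold FX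
    rw [h5]
  have hrX : rX T L N ((T.st s)^[t r] o, (T.st s)^[t (r + p)] o) s =
      rF T s ((T.st s)^[t r] o) (t (r + p) - t r) := by
    unfold rX
    rw [h5]
  rw [hFX, hrX]
  obtain ⟨q, hq, hq1, hq2⟩ := h.mem_piece hP (k := r + p) (by omega) (by omega)
  refine ⟨q, ?_, hq2⟩
  have hback : ∀ i ≤ per T s o, T.tgt ((T.st s)^[i] (T.rev ((T.st s)^[t r] o))) =
      sa T s o (per T s o - i + t r) := by
    intro i hi
    rw [Scn.back (by rw [hper]; exact hi), T.tgt_rev, hper]
    unfold sa
    rw [← iterate_add_apply]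
  have hbw : ∀ i ≤ per T s o, T.src ((T.st s)^[i] (T.rev ((T.st s)^[t r] o))) =
      T.tgt ((T.st s)^[per T s o - i + t r] o) := by
    intro i hi
    rw [Scn.back (by rw [hper]; exact hi), T.src_rev, hper, ← iterate_add_apply]
  have hBp : B ≤ per T s o := by omega
  refine ⟨h.loop.ring, h.tm, ?_, ?_, ?_, by simp, ?_, ?_, ?_, ?_, ?_, ?_, hq, ?_, ?_, ?_, ?_⟩
  · -- coll
    refine coll_FF hS.loop.bi (by omega) ?_
    exact hS.disj
  · -- fibF
    have hseen : ∀ m, π (T.src ((T.st s)^[m] o)) = O ∧ π (T.tgt ((T.st s)^[m] o)) = O := by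
      intro m
      obtain ⟨m', hm'⟩ := iter_bk T s o (τ 0) m
      rw [h.loop.hit 0 h.loop.ring.pos] at hm'
      rw [← hm']
      exact h.loop.ring.seen m'
    have hO : ∀ m, π (T.src ((T.st s)^[m] ((T.st s)^[t r] o))) = O ∧
        π (T.tgt ((T.st s)^[m] ((T.st s)^[t r] o))) = O := by
      intro m
      rw [← iterate_add_apply]
      exact hseen _
    have hO' : ∀ m ≤ per T s o, π (T.src ((T.st s)^[m] (T.rev ((T.st s)^[t r] o)))) = O ∧
        π (T.tgt ((T.st s)^[m] (T.rev ((T.st s)^[t r] o)))) = O := by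
      intro m hm
      rw [hback m hm, hbw m hm]
      exact ⟨(hseen _).2, (hseen _).1⟩
    rintro (_ | _ | _) v hv
    · rcases hv with (⟨i, hi, rfl⟩ | ⟨i, hi, rfl⟩) | ⟨⟨i, -, -, rfl⟩, -⟩
      · exact (hO i).2
      · exact (hO' i (by omega)).1
      · exact (hO i).1
    · obtain ⟨i, -, -, rfl⟩ := (mem_F2 (by omega)).1 hv
      exact (hO i).1
    · obtain ⟨i, hi, rfl⟩ := mem_F1.1 hv
      exact (hO' i (by omega)).2
  · rintro (_ | _ | _) <;> simp
  · omega
  · omega
  · rw [h.per0]; omega
  · rw [h.per0]; omega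
  · -- F1
    ext v
    rw [mem_F1]
    constructor
    · rintro ⟨i, hi, rfl⟩
      refine ⟨per T s o - i + t r - τ 0, by omega, by rw [h.per0]; omega, ?_⟩
      rw [hback i (by omega), h.sa0]
      congr 1
      omega
    · rintro ⟨m, e1, e2, rfl⟩
      rw [h.per0] at e2
      refine ⟨per T s o + t r - τ 0 - m, by omega, ?_⟩
      rw [hback _ (by omega), h.sa0]
      congr 1
      omega
  · -- F2
    ext v
    rw [mem_F2 (by omega)]
    constructor
    · rintro ⟨i, e1, e2, rfl⟩
      refine ⟨i + t r - τ 0, by omega, by omega, ?_⟩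
      rw [h.sa0, ← iterate_add_apply, show i + t r - τ 0 + τ 0 = i + t r by omega]
      rfl
    · rintro ⟨m, e1, e2, rfl⟩
      refine ⟨m + τ 0 - t r, by omega, by omega, ?_⟩
      rw [h.sa0, ← iterate_add_apply, show m + τ 0 - t r + t r = m + τ 0 by omega]
      rfl
  · omega
  · omega
  · -- near
    intro m e1 e2 e3
    have hblk : s (sa T s (c 0) m) = s (T.src ((T.st s)^[t r] o)) := by
      unfold sa
      rw [h.it0, T.col_src_iter s, T.col_src_iter s]
    have hb := hS.loop.bi
    rcases e3 with e3 | ⟨⟨i, e4, e5, e6⟩, -⟩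
    · exact hb (hblk.symm.trans (col_Fw e3))
    · rw [h.sa0, ← iterate_add_apply] at e6
      -- pieces
      obtain ⟨k, k1, k2⟩ := h.feet.loc (i + t r)
      obtain ⟨l, l1, l2⟩ := h.feet.loc' (m := m + τ 0) (by omega)
      have a1 : r < k + 1 := by
        by_contra hc
        have := h.feet.mono (show k + 1 ≤ r by omega)
        omega
      have a2 : k < r + p := by
        by_contra hc
        have := h.feet.mono (show r + p ≤ k by omega)
        omega
      have a3 : r + (a - 1) < l + 1 := by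
        by_contra hc
        have := h.feet.mono (show l + 1 ≤ r + (a - 1) by omega)
        omega
      have a4 : l < r + (b + 1) := by
        by_contra hc
        have := h.feet.mono (show r + (b + 1) ≤ l by omega)
        omega
      exact h.feet.far k l (i + t r) (m + τ 0) (by omega) (by omega) k1 k2.le l1.le l2 e6
  · -- u0
    left
    left
    refine ⟨A, le_rfl, ?_⟩
    rw [← iterate_add_apply, h.it0]
    congr 2
    omega

end bw

end Vale.Agent.P148.R2.H126
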