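import Vale.Agent.P148.R2.H126.Fr
import Vale.Agent.P148.R2.H400.Flip14

/-!
# P148, row N4W: one cell, one fresh colouring (world 0)

`BW.hB` : the windows of the excursions which are joined to the middle of the arc, for one fresh
colouring `z` (hypothesis `hB` of `H400.msum_win_le`).
-/

set_option linter.unusedSectionVars false

open Set Function

namespace Vale.Agent.P148.R2.H126

open Vale.Agent.P148.R2.H258 Vale.Agent.P148.R2.H565 Vale.Agent.P148.R2.H659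
open Vale.Agent.P148.R2.N (ms nc)
open Vale.Agent.P148.R2.H959 (reg)
open Vale.Agent.P148.R2.H566 (W0)
open Vale.Agent.P148.R2.H609 (TP piX)
open Vale.Agent.P148.R2.H172 (Frame)
open Vale.Agent.P148.R2.H871 (per sa)
open Vale.Agent.P148.R2.H532 (FX rX sX WX)
open Vale.Agent.P148.R2.H400 (Cap lst clH idx s1 secB)
open Vale.Agent.P148.R2.H203 (tot)

section cell

variable {w : W0} {x₀ : w.X} {col : w.X → Bool} {K : ℕ} {o : w.D} {t : ℕ → ℕ} {n : ℕ}
  {c : ℕ → w.D} {τ : ℕ → ℕ} {X : ℕ → Set w.X} {N N' : Set w.X} {L rr p a b : ℕ}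

/-- The seen vertices are frozen. -/
theorem BW.frozen (h : BW (TP w x₀) (piX w) w.O col K o t n c τ X N N' L rr p a b)
    {v : w.X} (hv : v ∈ Rs (TP w x₀) L N N' (((TP w x₀).st col)^[t rr] o) col) : v.1 ∈ w.B := by

  obtain ⟨m, hm⟩ := h.scn.Rs_seen hv
  obtain ⟨m', hm'⟩ := iter_bk (TP w x₀) col o (τ 0) (m + t rr)
  rw [h.loop.hit 0 h.loop.ring.pos, iterate_add_apply] at hm'
  obtain ⟨h1, h2⟩ := h.loop.ring.seen m'
  rw [hm'] at h1 h2
  have h3 : piX w v = w.O := by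
    rcases hm with hm | hm
    · rw [← hm]; exact h1
    · rw [← hm]; exact h2
  exact H400.piB_eq_iff.1 h3

/-- **One fresh colouring.** -/
theorem BW.hB [Fintype w.X] (h : BW (TP w x₀) (piX w) w.O col K o t n c τ X N N' L rr p a b)
    (hblk : col ((TP w x₀).src o) = true) {si g : ℕ} (hs : ∀ i < n, i < si ↔ τ i < t g)
    (hg : rr + p + 1 ≤ g) (hne : (arc (TP w x₀) w.T w.O c si).Nonempty) {Φ : w.D → ℂ}
    (hΦ1 : ∀ i < n, ∀ u, t u ≤ τ i → τ i < t (u + 1) → rr + p ≤ u → Φ (c i) ≠ 0 →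
      rr + a ≤ u ∧ u < rr + b)
    (hΦ2 : ∀ d, Φ d ≠ 0 → (TP w x₀).Good d ∧ ∀ u < K, (u < a ∨ b ≤ u) →
      (TP w x₀).src d ∉ X u ∧ (TP w x₀).tgt d ∉ X u ∧ (TP w x₀).apex d ∉ X u)
    {Jm : Set w.D} (hJm : ∀ β ∈ Jm, ∃ i, t (rr + 1) ≤ i ∧ i ≤ t (rr + p - 1) ∧
      sa (TP w x₀) col o i = (TP w x₀).src β)
    {P : w.D → w.D → Prop}
    (hP : ∀ d g iy ix, si ≤ iy → iy ≤ ix → ix < n → (TP w x₀).apex g = (TP w x₀).src (c iy) →
      (TP w x₀).src d = (TP w x₀).src (c ix) → P d g → ∃ i < n, (i = iy ∨ i = ix) ∧ ∃ u,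
        t u ≤ τ i ∧ τ i < t (u + 1) ∧ rr + a + 1 ≤ u ∧ u + 1 ≤ rr + b)
    (z : w.X → Bool) (S : Finset w.D)
    (hS : ∀ d ∈ S, w.cap (arc (TP w x₀) w.T w.O c si) (s1 (secB x₀) w.O z) d ∧
      Cap w.T Jm (s1 (secB x₀) w.O z) d ∧ P d (lst w.T (s1 (secB x₀) w.O z) d)) :
    ∑ d ∈ S, ‖((clH (TP w x₀) c n d (lst w.T (s1 (secB x₀) w.O z) d)).map Φ).sum‖ ^ 2 ≤
      2 * WX (TP w x₀) L N (((TP w x₀).st col)^[t rr] o, ((TP w x₀).st col)^[t (rr + p)] o) col Φ
        (H953.glue (Rs (TP w x₀) L N N' (((TP w x₀).st col)^[t rr] o) col) col z) +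
        2 * tot w.T (s1 (secB x₀) w.O z) (H126.gp w.T Φ) := by

  have hPl : (TP w x₀).Planar := H592.HullTri.planar258 _ _ _
  obtain ⟨q, hW, hq⟩ := h.win hPl
  have hsq := h.seenEq z
  have hW' := hW.recol hsq
  have hbo : (TP w x₀).Bi col o := h.feet.bi
  have hor : col ((TP w x₀).src (((TP w x₀).st col)^[t rr] o)) = true := by
    rw [(TP w x₀).col_src_iter col]; exact hblk
  have hot : col ((TP w x₀).tgt (((TP w x₀).st col)^[t rr] o)) = false := by
    rw [(TP w x₀).col_tgt_iter col]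
    have h1 : col ((TP w x₀).src o) ≠ col ((TP w x₀).tgt o) := hbo
    rw [hblk] at h1
    revert h1
    cases col ((TP w x₀).tgt o) <;> simp
  have hcoll := hW.coll
  have hqsi : q < si := (hs q hW.hqn).2 (hq.trans_le (h.feet.mono hg))
  have main := H400.win_sum_le x₀ (s := si) (Jm := Jm) (t := z) hW'
    (σ2 := sX (TP w x₀) L N (((TP w x₀).st col)^[t rr] o, ((TP w x₀).st col)^[t (rr + p)] o) col
        (H953.glue (Rs (TP w x₀) L N N' (((TP w x₀).st col)^[t rr] o) col) col z))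
    (fun v hv => if_neg fun hv' => hv (h.frozen hv'))
    (by
      have h1 := (hsq 0).1
      rw [iterate_zero, id] at h1
      have h2 : col ((TP w x₀).src (c 0)) = true := by
        rw [← h.loop.hit 0 h.loop.ring.pos, (TP w x₀).col_src_iter col]; exact hblk
      exact h1.trans h2)
    (fun v hv => H532.sX_off hv)
    ((H532.sX_root true).trans hor) ((H532.sX_root false).trans hor)
    ((H532.sX_none hcoll).trans hot)
    (fun β hβ => by
      obtain ⟨i, h1, h2, h3⟩ := hJm β hβ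
      have h4 := h.mid h1 h2
      rw [h3] at h4
      exact h4)
    hqsi.le hne (P := P)
    (fun d g' iy ix e1 e2 e3 e4 e5 e6 => by
      obtain ⟨i, hi, hiy, u, u1, u2, u3, u4⟩ := hP d g' iy ix e1 e2 e3 e4 e5 e6
      have h5 := h.near hPl hW hq hi u1 u2 u3 u4
      rcases hiy with rfl | rfl
      · exact Or.inl h5
      · exact Or.inr h5)
    (Φ := Φ) (h.zero hPl hW hΦ1) S hS
  rw [H532.WX_eq hcoll (h.cgood hΦ2 hcoll)]
  exact main

end cell

end Vale.Agent.P148.R2.H126
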