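import Vale.Agent.P148.R2.H126.Cell
import Vale.Agent.P148.R2.H126.Wn

/-!
# P148, row N4W: one cell, one fresh colouring, frame form

`PE` : the cell `k` is next to one of the ends of the closing chain.
`frame_hB` : hypothesis `hB` of `H400.msum_win_le` for the arc between the gates `a₀` and `a₀ + g`
and the cell `a₀ + k`.
`frame_PE_false` : if the cell is inside the arc it is never next to an end.
-/

set_option linter.unusedSectionVars false

open Set Function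

namespace Vale.Agent.P148.R2.H126

open Vale.Agent.P148.R2.H258 Vale.Agent.P148.R2.H565 Vale.Agent.P148.R2.H659
open Vale.Agent.P148.R2.N (ms nc)
open Vale.Agent.P148.R2.H959 (reg)
open Vale.Agent.P148.R2.H566 (W0)
open Vale.Agent.P148.R2.H609 (TP piX)
open Vale.Agent.P148.R2.H172 (Frame)
open Vale.Agent.P148.R2.H871 (per sa)
open Vale.Agent.P148.R2.H532 (FX rX sX WX)
open Vale.Agent.P148.R2.H400 (Cap lst clH s1 secB)
open Vale.Agent.P148.R2.H203 (tot)

section cell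

variable {M : ℕ} {w : W0} {x₀ : w.X} {col : w.X → Bool} (F : Frame M w x₀ col)

/-- The cell `k` (counted from the gate `a₀`) is next to one of the ends of the closing chain of the
excursion of `d` with last dart `g`. -/
def PE (a₀ k : ℕ) (d g : w.D) : Prop :=
  k ∈ ends (nc M) (pcq (F.tb a₀) (F.bt a₀ (H400.idx (TP w x₀) (F.bc a₀) (F.bn a₀) ((TP w x₀).apex g))))
    (pcq (F.tb a₀) (F.bt a₀ (H400.idx (TP w x₀) (F.bc a₀) (F.bn a₀) ((TP w x₀).src d))))

theorem mem_wends {a₀ k : ℕ} {σ : w.V → Bool} {d : w.D} :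

    k ∈ wends (TP w x₀) w.T (nc M) (F.tb a₀) (F.bt a₀) (F.bc a₀) (F.bn a₀) σ d ↔
      PE F a₀ k d (lst w.T σ d) := Iff.rfl

/-- The pieces of the two ends. -/
theorem PE_nr {a₀ g k : ℕ} {si : ℕ} (hs : ∀ i < F.bn a₀, i < si ↔ F.bt a₀ i < F.tb a₀ g)
    {d e : w.D} {iy ix : ℕ} (h1 : si ≤ iy) (h2 : iy ≤ ix) (h3 : ix < F.bn a₀)
    (h4 : (TP w x₀).apex e = (TP w x₀).src (F.bc a₀ iy))
    (h5 : (TP w x₀).src d = (TP w x₀).src (F.bc a₀ ix)) (hP : PE F a₀ k d e) :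
    k < nc M ∧ ∃ i < F.bn a₀, (i = iy ∨ i = ix) ∧ ∃ u, F.tb a₀ u ≤ F.bt a₀ i ∧
      F.bt a₀ i < F.tb a₀ (u + 1) ∧ g ≤ u ∧ u < nc M ∧ Nr (nc M) k u := by
  classical
  have hf := F.base_feet a₀
  have hl := F.base_loop a₀
  have hK : F.tb a₀ (nc M) = per (TP w x₀) col (F.ob a₀) := by
    have := hf.add 0
    rwa [zero_add, hf.zero, zero_add] at this
  have piece : ∀ i, si ≤ i → i < F.bn a₀ → ∃ u, F.tb a₀ u ≤ F.bt a₀ i ∧
      F.bt a₀ i < F.tb a₀ (u + 1) ∧ g ≤ u ∧ u < nc M := by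
    intro i hi hin
    obtain ⟨u, hu1, hu2⟩ := hf.loc (F.bt a₀ i)
    have h6 : F.tb a₀ g ≤ F.bt a₀ i := by
      by_contra hc
      have := (hs i hin).2 (by omega)
      omega
    have h7 := hl.lt i hin
    refine ⟨u, hu1, hu2, ?_, ?_⟩
    · by_contra hc
      have := hf.mono (show u + 1 ≤ g by omega)
      omega
    · by_contra hc
      have := hf.mono (show nc M ≤ u by omega)
      omega
  obtain ⟨uy, y1, y2, y3, y4⟩ := piece iy h1 (by omega)
  obtain ⟨ux, x1, x2, x3, x4⟩ := piece ix (by omega) h3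
  unfold PE at hP
  rw [h4, h5, H400.idx_eq hl.ring (by omega), H400.idx_eq hl.ring h3, pcq_eq hf.inc y1 y2,
    pcq_eq hf.inc x1 x2] at hP
  unfold ends at hP
  rw [Finset.mem_filter, Finset.mem_range] at hP
  obtain ⟨hk, h6, -⟩ := hP
  refine ⟨hk, ?_⟩
  rcases h6 with h6 | h6
  · exact ⟨iy, by omega, Or.inl rfl, uy, y1, y2, y3, y4, h6⟩
  · exact ⟨ix, h3, Or.inr rfl, ux, x1, x2, x3, x4, h6⟩

/-- The cell `k` as a number in `[1, nc M]`. -/
def kk (M k : ℕ) : ℕ := if k = 0 then nc M else k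

theorem kk_pos (M k : ℕ) : 1 ≤ kk M k := by
  unfold kk
  have := H565.nc_pos M
  split_ifs <;> omega

theorem kk_le {M k : ℕ} (h : k < nc M) : kk M k ≤ nc M := by
  unfold kk
  split_ifs <;> omega

/-- A piece next to the cell `k`. -/
theorem nr_kk {M k u g : ℕ} (hk : k < nc M) (hg : 2 ≤ g) (hgu : g ≤ u) (hu : u < nc M)
    (h : Nr (nc M) k u ∨ Nr (nc M) u k) : kk M k - 1 ≤ u ∧ u ≤ kk M k + 1 ∧ g ≤ kk M k + 1 := by
  unfold Nr at h
  unfold kk
  split_ifs <;> omega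

/-- If the cell is inside the arc it is never next to an end. -/
theorem PE_false {a₀ g k : ℕ} (hg : 2 ≤ g) (hkg : kk M k + 1 < g) {si : ℕ}
    (hs : ∀ i < F.bn a₀, i < si ↔ F.bt a₀ i < F.tb a₀ g)
    {d e : w.D} {iy ix : ℕ} (h1 : si ≤ iy) (h2 : iy ≤ ix) (h3 : ix < F.bn a₀)
    (h4 : (TP w x₀).apex e = (TP w x₀).src (F.bc a₀ iy))
    (h5 : (TP w x₀).src d = (TP w x₀).src (F.bc a₀ ix)) : ¬ PE F a₀ k d e := by
  intro hP
  obtain ⟨hk, i, -, -, u, -, -, u3, u4, u5⟩ := PE_nr F hs h1 h2 h3 h4 h5 hP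
  have := nr_kk hk hg u3 u4 (Or.inl u5)
  omega

/-- The darts from the frozen region to the free one, with real tail seen between the feet of the gates
`u` and `v`. -/
def Jmid (u v : ℕ) : Set w.D :=
  {β | w.T.src β = w.O ∧ w.T.tgt β ≠ w.O ∧ ∃ i, F.t u ≤ i ∧ i ≤ F.t v ∧
    sa (TP w x₀) col F.o i = (TP w x₀).src β}

/-- **One fresh colouring, frame form.** -/
theorem frame_hB [Fintype w.X] (hM : 0 < M) (hblk : col ((TP w x₀).src F.o) = true) {a₀ g k L : ℕ}
    (hg : 14 ≤ g) (hk : k < nc M) (hkg : g ≤ kk M k + 1)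
    (hL : per (TP w x₀) col F.o ≤ L) {si : ℕ}
    (hs : ∀ i < F.bn a₀, i < si ↔ F.bt a₀ i < F.tb a₀ g)
    (hne : (arc (TP w x₀) w.T w.O (F.bc a₀) si).Nonempty) {Φ : w.D → ℂ}
    (hgood : ∀ d, Φ d ≠ 0 → (TP w x₀).Good d)
    (hrot : ∀ d, Φ d ≠ 0 → Φ ((TP w x₀).nxt d) ≠ 0)
    (hsupp : ∀ d, ∀ j < nc M, ((TP w x₀).src d).1 ∈ reg M (a₀ + j) → Φ d ≠ 0 → Nr (nc M) j k)
    (z : w.X → Bool) (S : Finset w.D)
    (hS : ∀ d ∈ S, w.cap (arc (TP w x₀) w.T w.O (F.bc a₀) si) (s1 (secB x₀) w.O z) d ∧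
      Cap w.T (Jmid F (a₀ + 7) (a₀ + g - 7)) (s1 (secB x₀) w.O z) d ∧
      PE F a₀ k d (lst w.T (s1 (secB x₀) w.O z) d)) :

    ∑ d ∈ S, ‖((clH (TP w x₀) (F.bc a₀) (F.bn a₀) d
        (lst w.T (s1 (secB x₀) w.O z) d)).map Φ).sum‖ ^ 2 ≤
      2 * WX (TP w x₀) L (NR M w.X (a₀ + kk M k - 2) (a₀ + kk M k + 2))
        (F.ob (a₀ + 6), F.ob (a₀ + g - 6)) col Φ
        (H953.glue (Rs (TP w x₀) L (NR M w.X (a₀ + kk M k - 2) (a₀ + kk M k + 2))
          (NR M w.X (a₀ + kk M k - 3) (a₀ + kk M k + 3)) (F.ob (a₀ + 6)) col) col z) +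
        2 * tot w.T (s1 (secB x₀) w.O z) (H126.gp w.T Φ) := by
  have hf := F.base_feet a₀
  have hl := F.base_loop a₀
  have hkle := kk_le hk
  have hBW := frame_bw F hM (a₀ := a₀) (a₁ := a₀ + 6) (a₂ := a₀ + g - 6) (k := a₀ + kk M k) (L := L)
    (by omega) (by omega) (by omega) (by omega) (by omega) hL hl (F.base_main a₀)
  rw [show a₀ + 6 - a₀ = 6 by omega, show a₀ + g - 6 - (a₀ + 6) = g - 12 by omega,
    show a₀ + kk M k - 2 - (a₀ + 6) = kk M k - 8 by omega,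
    show a₀ + kk M k + 3 - (a₀ + 6) = kk M k - 3 by omega] at hBW
  have e1 : ((TP w x₀).st col)^[F.tb a₀ 6] (F.ob a₀) = F.ob (a₀ + 6) := ob_foot F
  have e2 : ((TP w x₀).st col)^[F.tb a₀ (6 + (g - 12))] (F.ob a₀) = F.ob (a₀ + g - 6) := by
    rw [ob_foot F]
    congr 1
    omega
  have hob : col ((TP w x₀).src (F.ob a₀)) = true := by
    unfold Frame.ob
    rw [(TP w x₀).col_src_iter col]
    exact hblk
  have hsup2 : ∀ d, Φ d ≠ 0 → ∀ u < nc M, (u < kk M k - 8 ∨ kk M k - 3 ≤ u) →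
      ((TP w x₀).src d).1 ∉ reg M (a₀ + 6 + u) := by
    intro d hd u hu hu2 hmem
    have key : Nr (nc M) ((u + 6) % nc M) k := by
      refine hsupp d _ (Nat.mod_lt _ (H565.nc_pos M)) ?_ hd
      rcases Nat.lt_or_ge (u + 6) (nc M) with h1 | h1
      · rw [Nat.mod_eq_of_lt h1, show a₀ + (u + 6) = a₀ + 6 + u by omega]
        exact hmem
      · have h2 : (u + 6) % nc M = u + 6 - nc M := by
          rw [Nat.mod_eq_sub_mod h1, Nat.mod_eq_of_lt (by omega)]
        rw [h2, ← H959.reg_add_nc, show a₀ + (u + 6 - nc M) + nc M = a₀ + 6 + u by omega]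
        exact hmem
    rcases Nat.lt_or_ge (u + 6) (nc M) with h1 | h1
    · rw [Nat.mod_eq_of_lt h1] at key
      unfold Nr at key
      unfold kk at hu2 hkg hkle
      split_ifs at hu2 hkg hkle <;> omega
    · have h2 : (u + 6) % nc M = u + 6 - nc M := by
        rw [Nat.mod_eq_sub_mod h1, Nat.mod_eq_of_lt (by omega)]
      rw [h2] at key
      unfold Nr at key
      unfold kk at hu2 hkg hkle
      split_ifs at hu2 hkg hkle <;> omega
  have main := hBW.hB hob (si := si) (g := g) hs (by omega) hne (Φ := Φ)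
    (fun i hi u u1 u2 u3 u4 => by
      have hseen : ((TP w x₀).src (F.bc a₀ i)).1 ∈ reg M (a₀ + u) := by
        rw [← hl.hit i hi]
        unfold Frame.ob
        rw [← iterate_add_apply]
        have m1 := F.lt.mono (show a₀ ≤ a₀ + u by omega)
        have m2 := F.lt.mono (show a₀ ≤ a₀ + (u + 1) by omega)
        unfold Frame.tb at u1 u2
        exact (F.seen (a₀ + u) _ (by omega) (by
          rw [show a₀ + u + 1 = a₀ + (u + 1) by omega]
          omega)).1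
      have huK : u < nc M := by
        have hK : F.tb a₀ (nc M) = per (TP w x₀) col (F.ob a₀) := by
          have := hf.add 0
          rwa [zero_add, hf.zero, zero_add] at this
        have h7 := hl.lt i hi
        by_contra hc
        have := hf.mono (show nc M ≤ u by omega)
        omega
      have h8 := nr_kk hk (g := 2) le_rfl (by omega) huK (Or.inr (hsupp _ u huK hseen u4))
      omega)
    (fun d hd => ⟨hgood d hd, fun u hu hu2 => ⟨hsup2 d hd u hu hu2, ?_, ?_⟩⟩)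
    (Jm := Jmid F (a₀ + 7) (a₀ + g - 7))
    (fun β hβ => by
      obtain ⟨-, -, i, i1, i2, i3⟩ := hβ
      have m1 := F.lt.mono (show a₀ ≤ a₀ + 7 by omega)
      have m2 := F.lt.mono (show a₀ ≤ a₀ + g - 7 by omega)
      refine ⟨i - F.t a₀, ?_, ?_, ?_⟩
      · unfold Frame.tb
        rw [show a₀ + (6 + 1) = a₀ + 7 by omega]
        omega
      · unfold Frame.tb
        rw [show a₀ + (6 + (g - 12) - 1) = a₀ + g - 7 by omega]
        omega
      · rw [← i3]
        unfold sa Frame.ob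
        rw [← iterate_add_apply, show i - F.t a₀ + F.t a₀ = i by omega])
    (P := PE F a₀ k)
    (fun d e iy ix h1 h2 h3 h4 h5 h6 => by
      obtain ⟨-, i, hi, hiy, u, u1, u2, u3, u4, u5⟩ := PE_nr F hs h1 h2 h3 h4 h5 h6
      have h8 := nr_kk hk (g := g) (by omega) u3 u4 (Or.inl u5)
      exact ⟨i, hi, hiy, u, u1, u2, by omega, by omega⟩)
    z S hS
  · rw [e1, e2] at main
    exact main
  · intro h1
    refine hsup2 _ (hrot d hd) u hu hu2 ?_
    rw [Tri.src_nxt']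
    exact h1
  · intro h1
    refine hsup2 _ (hrot _ (hrot d hd)) u hu hu2 ?_
    rw [Tri.src_nxt', Tri.tgt_nxt]
    exact h1

end cell

end Vale.Agent.P148.R2.H126
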