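import Vale.Agent.P148.R2.H126.Rec
import Vale.Agent.P148.R2.H172.Sc3

/-!
# P148, row N4W: the near windows of a frame

`NR M X u v` : the sites in the regions `u, …, v`.
`frame_bw` : the window of the cell `k` for the part of the ring between the gates `a₁` and `a₂`,
members counted from the foot of the gate `a₀`.
-/

set_option linter.unusedSectionVars false

open Set Function

namespace Vale.Agent.P148.R2.H126

open Vale.Agent.P148.R2.H258 Vale.Agent.P148.R2.H565 Vale.Agent.P148.R2.H659
open Vale.Agent.P148.R2.N (ms nc)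
open Vale.Agent.P148.R2.H959 (reg)
open Vale.Agent.P148.R2.H566 (W0)
open Vale.Agent.P148.R2.H609 (TP piX)
open Vale.Agent.P148.R2.H172 (Frame)
open Vale.Agent.P148.R2.H871 (per)
open Vale.Agent.P148.R2.H532 (FX rX)

/-- The sites in the regions `u, …, v`. -/
def NR (M : ℕ) (X : Set ℂ) (u v : ℕ) : Set X := {x | ∃ j, u ≤ j ∧ j ≤ v ∧ x.1 ∈ reg M j}

section fr

variable {M : ℕ} {w : W0} {x₀ : w.X} {col : w.X → Bool} (F : Frame M w x₀ col)

theorem ob_iter {a k : ℕ} (n : ℕ) : ((TP w x₀).st col)^[n] (((TP w x₀).st col)^[F.tb a k] (F.ob a)) =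
    ((TP w x₀).st col)^[n + F.t (a + k)] F.o := by
  unfold Frame.ob Frame.tb
  rw [← iterate_add_apply, ← iterate_add_apply]
  congr 1
  have := F.lt.mono (show a ≤ a + k by omega)
  omega

theorem ob_foot {a k : ℕ} : ((TP w x₀).st col)^[F.tb a k] (F.ob a) = F.ob (a + k) := by
  have := ob_iter F (a := a) (k := k) 0
  rw [zero_add, iterate_zero, id] at this
  exact this

theorem per_le_card [Fintype w.D] : per (TP w x₀) col F.o ≤ Fintype.card w.D :=
  minimalPeriod_le_card

/-- **The window of a frame.** -/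
theorem frame_bw (hM : 0 < M) {a₀ a₁ a₂ k L : ℕ} (h1 : a₀ + 2 ≤ a₁) (h2 : a₁ + 1 ≤ a₂)
    (h3 : a₂ + 5 ≤ k) (h4 : k + 6 ≤ a₁ + nc M) (h5 : k ≤ a₀ + nc M + 2)
    (hL : per (TP w x₀) col F.o ≤ L) {n : ℕ} {c : ℕ → w.D} {τ : ℕ → ℕ}
    (hl : Loop (TP w x₀) (piX w) w.O col (F.ob a₀) n c τ)
    (hm : Main (TP w x₀) col (F.ob a₀) (F.tb a₀) (c 0)) :
    BW (TP w x₀) (piX w) w.O col (nc M) (F.ob a₀) (F.tb a₀) n c τ
      (fun u => {v : w.X | v.1 ∈ reg M (a₁ + u)}) (NR M w.X (k - 2) (k + 2))
      (NR M w.X (k - 3) (k + 3)) L (a₁ - a₀) (a₂ - a₁) (k - 2 - a₁) (k + 3 - a₁) where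
  feet := F.base_feet a₀
  loop := hl
  main := hm
  hr := by omega
  ra := by omega
  scn :=
    { loop := loopT_shift (F.base_feet a₀).loopT (a₁ - a₀)
      seen := by
        intro u m h6 h7
        have e1 : a₀ + (a₁ - a₀) = a₁ := by omega
        rw [ob_iter, e1]
        have m1 := F.lt.mono (show a₀ ≤ a₁ by omega)
        have m2 := F.lt.mono (show a₁ ≤ a₁ + u by omega)
        have m3 := F.lt.mono (show a₁ + u ≤ a₁ + u + 1 by omega)
        unfold Frame.tb at h6 h7
        rw [show a₀ + (a₁ - a₀ + u) = a₁ + u by omega, e1] at h6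
        rw [show a₀ + (a₁ - a₀ + (u + 1)) = a₁ + u + 1 by omega, e1] at h7
        exact F.seen (a₁ + u) (m + F.t a₁) (by omega) (by omega)
      far := by
        rintro u huK hu v hv ⟨j, hj1, hj2, hj⟩
        have hv' : v.1 ∈ reg M (a₁ + u) := hv
        rcases hu with hu | hu
        · exact Set.disjoint_left.1 (H959.disjoint_reg hM (j := a₁ + u) (k := j) (by omega)
            (by omega)) hv' hj
        · exact Set.disjoint_left.1 (H959.disjoint_reg hM (j := j) (k := a₁ + u) (by omega)
            (by omega)) hj hv'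
      inN := by
        intro u hu1 hu2 v hv
        exact ⟨a₁ + u, by omega, by omega, hv⟩
      inN' := by
        intro u hu1 hu2 v hv
        exact ⟨a₁ + u, by omega, by omega, hv⟩
      hL := by
        rw [ob_foot, show a₀ + (a₁ - a₀) = a₁ by omega]
        unfold Frame.ob
        rw [H871.per_iter]
        exact hL
      p1 := by omega
      pa := by omega
      ab := by omega
      bK := by omega }

end fr

end Vale.Agent.P148.R2.H126
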