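import Vale.Agent.P148.R2.H126.Sum
import Vale.Agent.P148.R2.H532.Two
import Vale.Agent.P148.R2.H953.Tool2

/-!
# P148, row N4W: the stopped strand

The strand of a far reference dart `o` is explored forwards and backwards until the next vertex lies
in the location set `N`; the explored set `Ss` is a stopping set.  The frozen classes `FF` are the
black vertices seen before `o`, the black vertices seen after the middle part of `J`, and the white
vertices together with the black vertices of the middle part of `J`.  `Rs` continues the forward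
exploration as long as the next vertex lies in `N'` or in `Ss`.
-/

namespace Vale.Agent.P148.R2.H126

open Function Vale.Agent.P148.R2.H258 Vale.Agent.P148.R2.H871 Vale.Agent.P148.R2.H400
  Vale.Agent.P148.R2.H532 Vale.Agent.P148.R2.H838 Vale.Agent.P148.R2.H203

variable {V D : Type*} {T : Tri V D}

/-! ### first times -/

open Classical in
/-- The first time `t < L` at which `P t` holds for the strand of `o`, and `L` if there is none. -/
noncomputable def ft (T : Tri V D) (L : ℕ) (P : ℕ → D → Prop) (s : V → Bool) (o : D) : ℕ :=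
  if h : ∃ t, t < L ∧ P t ((T.st s)^[t] o) then Nat.find h else L

variable {L : ℕ} {P : ℕ → D → Prop} {s s' : V → Bool} {o : D}

theorem ft_le : ft T L P s o ≤ L := by
  classical
  unfold ft
  split_ifs with h
  · exact (Nat.find_spec h).1.le
  · exact le_rfl

theorem ft_min {t : ℕ} (ht : t < ft T L P s o) : ¬ P t ((T.st s)^[t] o) := by
  classical
  intro hP
  have hL : t < L := ht.trans_le ft_le
  unfold ft at ht
  split_ifs at ht with h
  · exact Nat.find_min h ht ⟨hL, hP⟩
  · exact h ⟨t, hL, hP⟩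

theorem ft_prop (h : ft T L P s o < L) : P (ft T L P s o) ((T.st s)^[ft T L P s o] o) := by
  classical
  unfold ft at h ⊢
  split_ifs at h ⊢ with h1
  · exact (Nat.find_spec h1).2
  · exact absurd h (lt_irrefl _)

theorem ft_le_of {t : ℕ} (h : P t ((T.st s)^[t] o)) : ft T L P s o ≤ t := by
  by_contra h1
  push Not at h1
  exact ft_min h1 h

/-- Characterization. -/
theorem ft_unique {n : ℕ} (h0 : n ≤ L) (h1 : ∀ t < n, ¬ P t ((T.st s)^[t] o))
    (h2 : n < L → P n ((T.st s)^[n] o)) : ft T L P s o = n := by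
  apply le_antisymm
  · rcases h0.lt_or_eq with h3 | h3
    · exact ft_le_of (h2 h3)
    · rw [h3]; exact ft_le
  · by_contra h3
    push Not at h3
    exact h1 _ h3 (ft_prop (h3.trans_le h0))

theorem ft_congr (h : ∀ v ∈ Old T s o (ft T L P s o), s' v = s v) :
    ft T L P s' o = ft T L P s o := by
  apply ft_unique ft_le
  · intro t ht
    rw [iter_congr T h t ht.le]
    exact ft_min ht
  · intro h1
    rw [iter_congr T h _ le_rfl]
    exact ft_prop h1

/-! ### the explored sets -/

variable (T) (L : ℕ) (N N' : Set V) (o o' : D)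

/-- Forward stopping time. -/
noncomputable def tA (s : V → Bool) : ℕ := ft T L (fun _ d => T.apex d ∈ N) s o

/-- Backward stopping time. -/
noncomputable def tB (s : V → Bool) : ℕ := ft T L (fun _ d => T.apex d ∈ N) s (T.rev o)

/-- The end of the middle part of `J`. -/
noncomputable def tJ (s : V → Bool) : ℕ := min (ft T L (fun _ d => d = o') s o) (tA T L N o s)

/-- The vertices seen by the stopped strand. -/
def Ss (s : V → Bool) : Set V := Old T s o (tA T L N o s) ∪ Old T s (T.rev o) (tB T L N o s)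

/-- The final time of the second exploration. -/
noncomputable def tK (s : V → Bool) : ℕ :=
  ft T L (fun t d => tA T L N o s ≤ t ∧ T.apex d ∉ N' ∧ T.apex d ∉ Ss T L N o s) s o

/-- The vertices seen by the continued strand. -/
def Rs (s : V → Bool) : Set V := Ss T L N o s ∪ Old T s o (tK T L N N' o s)

variable {T L N N' o o'}

theorem tA_congr (h : ∀ v ∈ Ss T L N o s, s' v = s v) : tA T L N o s' = tA T L N o s :=
  ft_congr fun v hv => h v (Or.inl hv)

theorem tB_congr (h : ∀ v ∈ Ss T L N o s, s' v = s v) : tB T L N o s' = tB T L N o s :=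
  ft_congr fun v hv => h v (Or.inr hv)

theorem Ss_congr (h : ∀ v ∈ Ss T L N o s, s' v = s v) : Ss T L N o s' = Ss T L N o s := by
  unfold Ss
  rw [tA_congr h, tB_congr h, old_congr T (fun v hv => h v (Or.inl hv)),
    old_congr T (fun v hv => h v (Or.inr hv))]

theorem isStop_Ss : H953.IsStop (Ss T L N o) := fun _ _ h => Ss_congr h

theorem tJ_congr (h : ∀ v ∈ Ss T L N o s, s' v = s v) :
    tJ T L N o o' s' = tJ T L N o o' s := by
  have hA := tA_congr h
  have hit : ∀ i ≤ tA T L N o s, (T.st s')^[i] o = (T.st s)^[i] o :=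
    iter_congr T fun v hv => h v (Or.inl hv)
  unfold tJ
  rw [hA]
  set a := tA T L N o s with ha
  by_cases h1 : ft T L (fun _ d => d = o') s o ≤ a
  · have h2 : ft T L (fun _ d => d = o') s' o = ft T L (fun _ d => d = o') s o := by
      apply ft_unique ft_le
      · intro t ht
        rw [hit t (by omega)]
        exact ft_min ht
      · intro h3
        rw [hit _ h1]
        exact ft_prop h3
    rw [h2]
  · have h2 : a < ft T L (fun _ d => d = o') s' o := by
      by_contra h3
      push Not at h1 h3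
      have hL : a ≤ L := ft_le
      have hlt : ft T L (fun _ d => d = o') s' o < L := by
        have : ft T L (fun _ d => d = o') s o ≤ L := ft_le
        omega
      have h4 := ft_prop hlt
      rw [hit _ h3] at h4
      exact ft_min (lt_of_le_of_lt h3 h1) h4
    push Not at h1
    omega

theorem tJ_le : tJ T L N o o' s ≤ tA T L N o s := min_le_right _ _

theorem Ss_sub_Rs : Ss T L N o s ⊆ Rs T L N N' o s := Set.subset_union_left

theorem isStop_Rs : H953.IsStop (Rs T L N N' o) := by
  intro s s' h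
  have h1 : ∀ v ∈ Ss T L N o s, s' v = s v := fun v hv => h v (Or.inl hv)
  have h2 : ∀ v ∈ Old T s o (tK T L N N' o s), s' v = s v := fun v hv => h v (Or.inr hv)
  have hS := Ss_congr h1
  have hK : tK T L N N' o s' = tK T L N N' o s := by
    have h3 : tK T L N N' o s' =
        ft T L (fun t d => tA T L N o s ≤ t ∧ T.apex d ∉ N' ∧ T.apex d ∉ Ss T L N o s) s' o := by
      unfold tK
      rw [hS, tA_congr h1]
    rw [h3]
    exact ft_congr h2
  unfold Rs
  rw [hS, hK, old_congr T h2]

/-- The corners of the next dart are corners of the face. -/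
theorem st_corner (s : V → Bool) (d : D) :
    (T.src (T.st s d) = T.src d ∨ T.src (T.st s d) = T.apex d) ∧
      (T.tgt (T.st s d) = T.tgt d ∨ T.tgt (T.st s d) = T.apex d) := by
  by_cases hb : T.Bi s d
  · by_cases hm : T.Mi s d
    · exact ⟨Or.inr (T.src_st_mi hm), Or.inl (T.tgt_st_mi hm)⟩
    · exact ⟨Or.inl (T.src_st_nmi hb hm), Or.inr (T.tgt_st_nmi hb hm)⟩
  · rw [T.st_not hb]
    exact ⟨Or.inl rfl, Or.inl rfl⟩

theorem tA_le_tK : tA T L N o s ≤ tK T L N N' o s := by
  by_cases h : tK T L N N' o s < L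
  · exact (ft_prop h).1
  · have h1 : tA T L N o s ≤ L := ft_le
    omega

/-- The continued exploration stays in `N'`. -/
theorem Rs_sub : Rs T L N N' o s \ Ss T L N o s ⊆ N' := by
  have key : ∀ i, i ≤ tK T L N N' o s →
      (T.src ((T.st s)^[i] o) ∈ Ss T L N o s ∨ T.src ((T.st s)^[i] o) ∈ N') ∧
      (T.tgt ((T.st s)^[i] o) ∈ Ss T L N o s ∨ T.tgt ((T.st s)^[i] o) ∈ N') := by
    intro i
    induction i with
    | zero =>
      intro _
      exact ⟨Or.inl (Or.inl ⟨0, Nat.zero_le _, Or.inl rfl⟩),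
        Or.inl (Or.inl ⟨0, Nat.zero_le _, Or.inr rfl⟩)⟩
    | succ i ih =>
      intro hi
      by_cases hiA : i + 1 ≤ tA T L N o s
      · exact ⟨Or.inl (Or.inl ⟨i + 1, hiA, Or.inl rfl⟩), Or.inl (Or.inl ⟨i + 1, hiA, Or.inr rfl⟩)⟩
      · obtain ⟨h1, h2⟩ := ih (by omega)
        have h3 := ft_min (show i < tK T L N N' o s by omega)
        have h4 : T.apex ((T.st s)^[i] o) ∈ Ss T L N o s ∨ T.apex ((T.st s)^[i] o) ∈ N' := by
          by_contra h5
          push Not at h5
          exact h3 ⟨by omega, h5.2, h5.1⟩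
        rw [iterate_succ', comp_apply]
        obtain ⟨h5, h6⟩ := st_corner (T := T) s ((T.st s)^[i] o)
        constructor
        · rcases h5 with h5 | h5 <;> rw [h5] <;> assumption
        · rcases h6 with h6 | h6 <;> rw [h6] <;> assumption
  rintro v ⟨hv | hv, hv2⟩
  · exact absurd hv hv2
  · obtain ⟨i, hi, h1 | h1⟩ := hv
    · rcases (key i hi).1 with h2 | h2
      · exact absurd (h1 ▸ h2) hv2
      · exact h1 ▸ h2
    · rcases (key i hi).2 with h2 | h2
      · exact absurd (h1 ▸ h2) hv2
      · exact h1 ▸ h2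

/-- If all vertices seen after the first stopping time are in `N'` or in `Ss`, everything is seen. -/
theorem tK_eq (h : ∀ t, tA T L N o s ≤ t → t < L →
    T.apex ((T.st s)^[t] o) ∈ N' ∨ T.apex ((T.st s)^[t] o) ∈ Ss T L N o s) :
    tK T L N N' o s = L := by
  by_contra hne
  have hlt : tK T L N N' o s < L := lt_of_le_of_ne ft_le hne
  obtain ⟨h1, h2, h3⟩ := ft_prop hlt
  rcases h _ h1 hlt with h4 | h4
  · exact h2 h4
  · exact h3 h4

theorem Rs_eq [Finite D] (hL : per T s o ≤ L) (h : ∀ t, tA T L N o s ≤ t → t < L →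
    T.apex ((T.st s)^[t] o) ∈ N' ∨ T.apex ((T.st s)^[t] o) ∈ Ss T L N o s) (t : ℕ) :
    T.src ((T.st s)^[t] o) ∈ Rs T L N N' o s ∧ T.tgt ((T.st s)^[t] o) ∈ Rs T L N N' o s := by
  have hK := tK_eq h
  have hmod : (T.st s)^[t % per T s o] o = (T.st s)^[t] o := iterate_mod_minimalPeriod_eq
  have hle : t % per T s o ≤ tK T L N N' o s := by
    rw [hK]
    exact (Nat.mod_lt _ (per_pos T s o)).le.trans hL
  rw [← hmod]
  exact ⟨Or.inr ⟨_, hle, Or.inl rfl⟩, Or.inr ⟨_, hle, Or.inr rfl⟩⟩

/-! ### the frozen classes -/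

/-- The frozen classes: `some true` = sources at the times in `[-b, 0]`, `some false` = sources at the
times in `[j, a]`, `none` = the white side and the sources at the times in `(0, j)`. -/
def FF (T : Tri V D) (s : V → Bool) (o : D) (j a b : ℕ) : Option Bool → Set V
  | some true => HW T s (T.rev o) b
  | some false => HB T s ((T.st s)^[j] o) (a - j)
  | none => (HW T s o a ∪ HB T s (T.rev o) b) ∪ {v | (∃ i, 0 < i ∧ i < j ∧ T.src ((T.st s)^[i] o) = v) ∧
      v ∉ HW T s (T.rev o) b ∧ v ∉ HB T s ((T.st s)^[j] o) (a - j)}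

/-- The roots. -/
noncomputable def rF (T : Tri V D) (s : V → Bool) (o : D) (j : ℕ) : Option Bool → V
  | some true => T.src o
  | some false => T.src ((T.st s)^[j] o)
  | none => T.tgt o

variable {j a b : ℕ}

theorem mem_F1 {v : V} : v ∈ FF T s o j a b (some true) ↔
    ∃ i ≤ b, T.tgt ((T.st s)^[i] (T.rev o)) = v := Iff.rfl

theorem mem_F2 (hja : j ≤ a) {v : V} : v ∈ FF T s o j a b (some false) ↔
    ∃ i, j ≤ i ∧ i ≤ a ∧ T.src ((T.st s)^[i] o) = v := by
  constructor
  · rintro ⟨i, hi, h⟩
    rw [← iterate_add_apply] at h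
    exact ⟨i + j, by omega, by omega, h⟩
  · rintro ⟨i, h1, h2, h3⟩
    refine ⟨i - j, by omega, ?_⟩
    rw [← iterate_add_apply, show i - j + j = i by omega]
    exact h3

theorem col_F1 {v : V} (hv : v ∈ FF T s o j a b (some true)) : s v = s (T.src o) := by
  have := col_HW hv
  rwa [T.tgt_rev] at this

theorem col_F2 {v : V} (hv : v ∈ FF T s o j a b (some false)) : s v = s (T.src o) := by
  have := col_HB hv
  rwa [T.col_src_iter s] at this

theorem col_Fw {v : V} (hv : v ∈ HW T s o a ∪ HB T s (T.rev o) b) : s v = s (T.tgt o) := by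
  rcases hv with h | h
  · exact col_HW h
  · have := col_HB h
    rwa [T.src_rev] at this

theorem coll_FF (hb : T.Bi s o) (hja : j ≤ a)
    (hd : ∀ v, v ∈ FF T s o j a b (some true) → v ∉ FF T s o j a b (some false)) :
    Coll T (FF T s o j a b) (rF T s o j) where
  disj := by
    have hw1 : ∀ v, v ∈ FF T s o j a b (some true) → v ∉ FF T s o j a b none := by
      rintro v h1 (h2 | ⟨-, h2, -⟩)
      · exact hb ((col_F1 h1).symm.trans (col_Fw h2))
      · exact h2 h1
    have hw2 : ∀ v, v ∈ FF T s o j a b (some false) → v ∉ FF T s o j a b none := by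
      rintro v h1 (h2 | ⟨-, -, h2⟩)
      · exact hb ((col_F2 h1).symm.trans (col_Fw h2))
      · exact h2 h1
    rintro (_ | _ | _) (_ | _ | _) v h1 h2
    · rfl
    · exact absurd h1 (hw2 v h2)
    · exact absurd h1 (hw1 v h2)
    · exact absurd h2 (hw2 v h1)
    · rfl
    · exact absurd h1 (hd v h2)
    · exact absurd h2 (hw1 v h1)
    · exact absurd h2 (hd v h1)
    · rfl
  root := by
    rintro (_ | _ | _)
    · exact Or.inl (Or.inl ⟨0, Nat.zero_le _, rfl⟩)
    · exact ⟨0, Nat.zero_le _, rfl⟩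
    · exact ⟨0, Nat.zero_le _, T.tgt_rev o⟩
  conn := by
    have hb' : T.Bi s (T.rev o) := T.bi_rev.2 hb
    have hw : ∀ x ∈ HW T s o a ∪ HB T s (T.rev o) b, ∃ l, T.Walk x (T.tgt o) l ∧ ∀ g ∈ l,
        T.src g ∈ FF T s o j a b none ∧ T.tgt g ∈ FF T s o j a b none := by
      rintro x (hx | hx)
      · obtain ⟨l, h1, h2⟩ := HW_conn hb hx
        exact ⟨l, h1, fun g hg => ⟨Or.inl (Or.inl (h2 g hg).1), Or.inl (Or.inl (h2 g hg).2)⟩⟩
      · obtain ⟨l, h1, h2⟩ := HB_conn hb' hx
        rw [T.src_rev] at h1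
        exact ⟨l, h1, fun g hg => ⟨Or.inl (Or.inr (h2 g hg).1), Or.inl (Or.inr (h2 g hg).2)⟩⟩
    rintro (_ | _ | _) x hx
    · by_cases hx0 : x ∈ HW T s o a ∪ HB T s (T.rev o) b
      · exact hw x hx0
      · rcases hx with hx | hx
        · exact absurd hx hx0
        · obtain ⟨⟨i, hi1, hi2, rfl⟩, -⟩ := id hx
          have hy : T.tgt ((T.st s)^[i] o) ∈ HW T s o a ∪ HB T s (T.rev o) b :=
            Or.inl ⟨i, by omega, rfl⟩
          obtain ⟨l, h1, h2⟩ := hw _ hy
          refine ⟨(T.st s)^[i] o :: l, Tri.Walk.cons' _ rfl h1, ?_⟩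
          intro g hg
          rcases List.mem_cons.1 hg with rfl | hg
          · exact ⟨Or.inr hx, Or.inl hy⟩
          · exact h2 g hg
    · exact HB_conn ((T.bi_iter j).2 hb) hx
    · have := HW_conn hb' (t := b) hx
      rwa [T.tgt_rev] at this

theorem iUnion_FF (hja : j ≤ a) :
    ⋃ i, FF T s o j a b i = Old T s o a ∪ Old T s (T.rev o) b := by
  ext v
  rw [old_eq, old_eq, Set.mem_iUnion]
  constructor
  · rintro ⟨(_ | _ | _), h⟩
    · rcases h with (h | h) | ⟨⟨i, h1, h2, h3⟩, -⟩
      · exact Or.inl (Or.inr h)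
      · exact Or.inr (Or.inl h)
      · exact Or.inl (Or.inl ⟨i, by omega, h3⟩)
    · obtain ⟨i, h1, h2, h3⟩ := (mem_F2 hja).1 h
      exact Or.inl (Or.inl ⟨i, h2, h3⟩)
    · exact Or.inr (Or.inr h)
  · rintro ((h | h) | (h | h))
    · obtain ⟨i, hi, h1⟩ := h
      by_cases h2 : v ∈ HW T s (T.rev o) b
      · exact ⟨some true, h2⟩
      · by_cases h3 : v ∈ HB T s ((T.st s)^[j] o) (a - j)
        · exact ⟨some false, h3⟩
        · refine ⟨none, Or.inr ⟨⟨i, ?_, ?_, h1⟩, h2, h3⟩⟩
          · rcases Nat.eq_zero_or_pos i with h4 | h4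
            · exfalso
              apply h2
              refine ⟨0, Nat.zero_le _, ?_⟩
              rw [← h1, h4]
              exact T.tgt_rev o
            · exact h4
          · by_contra h4
            exact h3 ((mem_F2 (b := b) hja).2 ⟨i, by omega, hi, h1⟩)
    · exact ⟨none, Or.inl (Or.inl h)⟩
    · exact ⟨none, Or.inl (Or.inr h)⟩
    · exact ⟨some true, h⟩

end Vale.Agent.P148.R2.H126
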