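import Vale.Agent.P148.R2.H126.Frz
import Vale.Agent.P148.R2.H565.Mc2

/-!
# P148, row N4W: the near window of a closed ring

`o` is the foot at the start of the middle part of `J` (pieces `0, …, p-1`), the near window consists of
the pieces `a, …, b-1`; `N` contains their regions and no vertex of the regions of the pieces which
are not adjacent to the window.
-/

namespace Vale.Agent.P148.R2.H126

open Function Vale.Agent.P148.R2.H258 Vale.Agent.P148.R2.H871 Vale.Agent.P148.R2.H400
  Vale.Agent.P148.R2.H532 Vale.Agent.P148.R2.H838 Vale.Agent.P148.R2.H203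
  Vale.Agent.P148.R2.H565

variable {V D : Type*} {T : Tri V D} {s : V → Bool} {K : ℕ} {o : D} {t : ℕ → ℕ}

/-- Another base foot. -/
theorem loopT_shift [Finite D] (h : LoopT T s K o t) (r : ℕ) :
    LoopT T s K ((T.st s)^[t r] o) (fun k => t (r + k) - t r) where
  bi := (T.bi_iter _).2 h.bi
  zero := by simp
  inc k := by
    have h1 := h.inc (r + k)
    have h2 := h.mono (show r ≤ r + k by omega)
    change t (r + k) - t r < t (r + k + 1) - t r
    omega
  per k := by
    have h1 := h.per (r + k)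
    have h2 := h.mono (show r ≤ r + k by omega)
    rw [per_iter]
    change t (r + (k + K)) - t r = t (r + k) - t r + H871.per T s o
    rw [← add_assoc, h1]
    omega
  adj j k i i' h1 h2 h3 h4 h5 h6 := by
    have e1 := h.mono (show r ≤ r + j by omega)
    have e2 := h.mono (show r ≤ r + (j + 1) by omega)
    have e3 := h.mono (show r ≤ r + k by omega)
    have e4 := h.mono (show r ≤ r + (k + 1) by omega)
    rw [sa_add, sa_add]
    change t (r + j) - t r ≤ i at h3
    change i ≤ t (r + (j + 1)) - t r at h4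
    change t (r + k) - t r ≤ i' at h5
    change i' ≤ t (r + (k + 1)) - t r at h6
    exact h.adj (r + j) (r + k) _ _ (by omega) (by omega) (by omega)
      (by rw [add_assoc]; omega) (by omega) (by rw [add_assoc]; omega)

/-- Sources are the first source or earlier apexes. -/
theorem src_from (T : Tri V D) (s : V → Bool) (o : D) (i : ℕ) :
    T.src ((T.st s)^[i] o) = T.src o ∨ ∃ j < i, T.src ((T.st s)^[i] o) = T.apex ((T.st s)^[j] o) := by
  induction i with
  | zero => exact Or.inl rfl
  | succ i ih =>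
    rw [iterate_succ', comp_apply]
    rcases (st_corner (T := T) s ((T.st s)^[i] o)).1 with h | h
    · rw [h]
      rcases ih with h1 | ⟨j, h1, h2⟩
      · exact Or.inl h1
      · exact Or.inr ⟨j, by omega, h2⟩
    · exact Or.inr ⟨i, by omega, h⟩

/-- The third corner behind a dart of the strand is a corner of the previous face. -/
theorem apex_back {d : D} (hb : T.Bi s d) :
    T.apex (T.rev (T.st s d)) = T.src d ∨ T.apex (T.rev (T.st s d)) = T.tgt d := by
  by_cases hm : T.Mi s d
  · left
    rw [T.st_mi hm, T.rev_rev, T.apex_nxt]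
  · right
    rw [T.st_nmi hb hm, T.rev_rev, T.apex_nxt2]

/-- The apex is a corner of the next dart. -/
theorem apex_next {d : D} (hb : T.Bi s d) :
    T.apex d = T.src (T.st s d) ∨ T.apex d = T.tgt (T.st s d) := by
  by_cases hm : T.Mi s d
  · exact Or.inl (T.src_st_mi hm).symm
  · exact Or.inr (T.tgt_st_nmi hb hm).symm

/-- The ring seen from the reference foot `o`, with the near window `[a, b)`. -/
structure Scn (T : Tri V D) (s : V → Bool) (K : ℕ) (o : D) (t : ℕ → ℕ) (X : ℕ → Set V)
    (N N' : Set V) (L p a b : ℕ) : Prop where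
  loop : LoopT T s K o t
  seen : ∀ k n, t k ≤ n → n < t (k + 1) → T.src ((T.st s)^[n] o) ∈ X k ∧
    T.tgt ((T.st s)^[n] o) ∈ X k ∧ T.apex ((T.st s)^[n] o) ∈ X k
  far : ∀ k < K, (k + 1 < a ∨ b < k) → ∀ v ∈ X k, v ∉ N
  inN : ∀ k, a ≤ k → k < b → X k ⊆ N
  inN' : ∀ k, a ≤ k + 1 → k ≤ b → X k ⊆ N'
  hL : per T s o ≤ L
  p1 : 1 ≤ p
  pa : p + 3 ≤ a
  ab : a < b
  bK : b + 3 ≤ K

section scn

variable {X : ℕ → Set V} {N N' : Set V} {L p a b : ℕ}

theorem Scn.tK (h : Scn T s K o t X N N' L p a b) : t K = per T s o := by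
  have := h.loop.per 0
  rwa [zero_add, h.loop.zero, zero_add] at this

theorem Scn.A_ge (h : Scn T s K o t X N N' L p a b) : t (a - 1) ≤ tA T L N o s := by
  by_contra hc
  push Not at hc
  have h1 := h.loop.mono (show a - 1 ≤ K by have := h.ab; have := h.bK; omega)
  have h2 := h.hL
  have h3 := h.tK
  have h4 : T.apex ((T.st s)^[tA T L N o s] o) ∈ N := ft_prop (show tA T L N o s < L by omega)
  obtain ⟨k, hk1, hk2⟩ := h.loop.loc (tA T L N o s)
  have hk : k < a - 1 := h.loop.lt_iff.1 (by omega)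
  have h5 := (h.seen k _ hk1 hk2).2.2
  exact h.far k (by have := h.ab; have := h.bK; omega) (Or.inl (by omega)) _ h5 h4

theorem Scn.A_lt (h : Scn T s K o t X N N' L p a b) : tA T L N o s < t a := by
  by_contra hc
  push Not at hc
  have h0 := h.loop.inc a
  have h1 := (h.seen a (t a) le_rfl h0).1
  have h2 := h.inN a le_rfl h.ab h1
  rcases src_from T s o (t a) with h3 | ⟨j, h3, h4⟩
  · rw [h3] at h2
    have h5 := (h.seen 0 0 (by rw [h.loop.zero]) (by
      have := h.loop.inc 0
      rw [h.loop.zero] at this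
      exact this)).1
    exact h.far 0 (by have := h.bK; omega) (Or.inl (by have := h.pa; omega)) _ h5 h2
  · rw [h4] at h2
    exact ft_min (show j < tA T L N o s by omega) h2

theorem Scn.back [Finite D] {i : ℕ} (hi : i ≤ per T s o) :
    (T.st s)^[i] (T.rev o) = T.rev ((T.st s)^[per T s o - i] o) := by
  rw [back_iter T s o hi, T.rev_rev]

theorem Scn.B_ge [Finite D] (h : Scn T s K o t X N N' L p a b) :
    per T s o ≤ tB T L N o s + t (b + 1) := by
  by_contra hc
  push Not at hc
  set B := tB T L N o s with hB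
  have h2 := h.hL
  have h3 := h.tK
  have h4 : T.apex ((T.st s)^[B] (T.rev o)) ∈ N := ft_prop (show tB T L N o s < L by omega)
  rw [Scn.back (by omega)] at h4
  obtain ⟨m, hm⟩ : ∃ m, per T s o - B = m + 1 := ⟨per T s o - B - 1, by omega⟩
  rw [hm, iterate_succ', comp_apply] at h4
  have hb : T.Bi s ((T.st s)^[m] o) := (T.bi_iter m).2 h.loop.bi
  obtain ⟨k, hk1, hk2⟩ := h.loop.loc m
  have hkb : b + 1 < k + 1 := h.loop.lt_iff.1 (by omega)
  have hkK : k < K := h.loop.lt_iff.1 (by omega)
  have h5 := h.seen k m hk1 hk2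
  rcases apex_back hb with h6 | h6
  · rw [h6] at h4
    exact h.far k hkK (Or.inr (by omega)) _ h5.1 h4
  · rw [h6] at h4
    exact h.far k hkK (Or.inr (by omega)) _ h5.2.1 h4

theorem Scn.B_le [Finite D] (h : Scn T s K o t X N N' L p a b) :
    tB T L N o s + t b ≤ per T s o := by
  by_contra hc
  push Not at hc
  set B := tB T L N o s with hB
  have h3 := h.tK
  have hab := h.ab
  have hbK := h.bK
  have hpa := h.pa
  have h4 : t b ≤ t K := h.loop.mono (by omega)
  have h5 : t (b - 1) < t b := h.loop.lt_iff.2 (by omega)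
  -- time `i = per - t b + 1` of the backward strand
  set i := per T s o - t b + 1 with hi
  have h6 : per T s o - i = t b - 1 := by omega
  have h7 := (h.seen (b - 1) (t b - 1) (by omega) (by
    rw [show b - 1 + 1 = b by omega]; omega)).2.1
  have h8 := h.inN (b - 1) (by omega) (by omega) h7
  have h9 : T.src ((T.st s)^[i] (T.rev o)) = T.tgt ((T.st s)^[t b - 1] o) := by
    rw [Scn.back (by omega), T.src_rev, h6]
  rw [← h9] at h8
  rcases src_from T s (T.rev o) i with h10 | ⟨j, h10, h11⟩
  · rw [h10, T.src_rev] at h8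
    have h11 := (h.seen 0 0 (by rw [h.loop.zero]) (by
      have := h.loop.inc 0
      rw [h.loop.zero] at this
      exact this)).2.1
    exact h.far 0 (by omega) (Or.inl (by omega)) _ h11 h8
  · rw [h11] at h8
    exact ft_min (show j < tB T L N o s by omega) h8

theorem Scn.tJ_eq [Finite D] (h : Scn T s K o t X N N' L p a b) :
    tJ T L N o ((T.st s)^[t p] o) s = t p := by
  have h3 := h.tK
  have hab := h.ab
  have hbK := h.bK
  have hpa := h.pa
  have h1 : t p ≤ t (a - 1) := h.loop.mono (by omega)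
  have h2 : t p < t K := h.loop.lt_iff.2 (by omega)
  have h4 : ft T L (fun _ d => d = (T.st s)^[t p] o) s o = t p := by
    apply ft_unique
    · have := h.hL; omega
    · intro i hi hh
      have := (iterate_eq_iterate_iff_of_lt_minimalPeriod (f := T.st s) (x := o)
        (show i < per T s o by omega) (show t p < per T s o by omega)).1 hh
      omega
    · intro _; rfl
  unfold tJ
  rw [h4]
  have := h.A_ge
  omega

/-- Seen vertices at early and late times are in `Ss`. -/
theorem Scn.early (h : Scn T s K o t X N N' L p a b) {i : ℕ} (hi : i ≤ tA T L N o s) :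
    T.src ((T.st s)^[i] o) ∈ Ss T L N o s ∧ T.tgt ((T.st s)^[i] o) ∈ Ss T L N o s :=
  ⟨Or.inl ⟨i, hi, Or.inl rfl⟩, Or.inl ⟨i, hi, Or.inr rfl⟩⟩

theorem Scn.late [Finite D] (h : Scn T s K o t X N N' L p a b) {i : ℕ} (hi : i ≤ per T s o)
    (hi2 : per T s o ≤ i + tB T L N o s) :
    T.src ((T.st s)^[i] o) ∈ Ss T L N o s ∧ T.tgt ((T.st s)^[i] o) ∈ Ss T L N o s := by
  have h1 : (T.st s)^[per T s o - i] (T.rev o) = T.rev ((T.st s)^[i] o) := by
    rw [Scn.back (by omega), show per T s o - (per T s o - i) = i by omega]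
  refine ⟨Or.inr ⟨per T s o - i, by omega, Or.inr ?_⟩, Or.inr ⟨per T s o - i, by omega, Or.inl ?_⟩⟩
  · rw [h1, T.tgt_rev]
  · rw [h1, T.src_rev]

theorem Scn.next_seen [Finite D] (h : Scn T s K o t X N N' L p a b) (n : ℕ) :
    T.apex ((T.st s)^[n] o) ∈ N' ∨ T.apex ((T.st s)^[n] o) ∈ Ss T L N o s := by
  have h3 := h.tK
  have hper := per_pos T s o
  have hmod : (T.st s)^[n % per T s o] o = (T.st s)^[n] o := iterate_mod_minimalPeriod_eq
  rw [← hmod]
  set m := n % per T s o with hm
  have hmlt : m < per T s o := Nat.mod_lt _ hper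
  have hb : T.Bi s ((T.st s)^[m] o) := (T.bi_iter m).2 h.loop.bi
  obtain ⟨k, hk1, hk2⟩ := h.loop.loc m
  have hA := h.A_ge
  have hB := h.B_ge
  have hin : ∀ {v : V}, (v = T.src ((T.st s)^[m + 1] o) ∨ v = T.tgt ((T.st s)^[m + 1] o)) →
      (m + 1 ≤ tA T L N o s ∨ per T s o ≤ m + 1 + tB T L N o s) → v ∈ Ss T L N o s := by
    intro v hv hcase
    have : T.src ((T.st s)^[m + 1] o) ∈ Ss T L N o s ∧ T.tgt ((T.st s)^[m + 1] o) ∈ Ss T L N o s := by
      rcases hcase with hc | hc
      · exact h.early hc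
      · exact h.late (by omega) hc
    rcases hv with rfl | rfl
    · exact this.1
    · exact this.2
  have hap := apex_next hb
  rw [← iterate_succ_apply' (T.st s) m o] at hap
  by_cases hk : k + 1 < a
  · right
    have h4 : t (k + 1) ≤ t (a - 1) := h.loop.mono (by omega)
    exact hin hap (Or.inl (by omega))
  · by_cases hk' : b < k
    · right
      have h4 : t (b + 1) ≤ t k := h.loop.mono (by omega)
      exact hin hap (Or.inr (by omega))
    · left
      exact h.inN' k (by omega) (by omega) (h.seen k m hk1 hk2).2.2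

/-- Everything the loop sees is in `Rs`. -/
theorem Scn.seen_Rs [Finite D] (h : Scn T s K o t X N N' L p a b) (n : ℕ) :
    T.src ((T.st s)^[n] o) ∈ Rs T L N N' o s ∧ T.tgt ((T.st s)^[n] o) ∈ Rs T L N N' o s :=
  Rs_eq h.hL (fun m _ _ => h.next_seen m) n

/-- `Rs` is seen by the loop. -/
theorem Scn.Rs_seen [Finite D] (h : Scn T s K o t X N N' L p a b) {v : V}
    (hv : v ∈ Rs T L N N' o s) :
    ∃ n, T.src ((T.st s)^[n] o) = v ∨ T.tgt ((T.st s)^[n] o) = v := by
  rcases hv with (⟨i, -, hi⟩ | ⟨i, h1, hi⟩) | ⟨i, -, hi⟩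
  · exact ⟨i, hi⟩
  · have := h.B_le
    rw [Scn.back (by omega), T.src_rev, T.tgt_rev] at hi
    exact ⟨_, hi.symm⟩
  · exact ⟨i, hi⟩

/-- The two far black classes are disjoint. -/
theorem Scn.disj [Finite D] (h : Scn T s K o t X N N' L p a b) (v : V)
    (h1 : v ∈ FF T s o (t p) (tA T L N o s) (tB T L N o s) (some true)) :
    v ∉ FF T s o (t p) (tA T L N o s) (tB T L N o s) (some false) := by
  intro h2
  have hA := h.A_ge
  have hA' := h.A_lt
  have hB := h.B_le
  have hp1 := h.p1
  have hpa := h.pa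
  have hab := h.ab
  have hbK := h.bK
  have hK := h.tK
  have hpA : t p ≤ t (a - 1) := h.loop.mono (by omega)
  obtain ⟨i, hi, rfl⟩ := mem_F1.1 h1
  obtain ⟨i', h3, h4, h5⟩ := (mem_F2 (b := tB T L N o s) (by omega)).1 h2
  rw [Scn.back (by omega), T.tgt_rev] at h5
  obtain ⟨k', hk1, hk2⟩ := h.loop.loc i'
  have hk'p : p < k' + 1 := h.loop.lt_iff.1 (by omega)
  have hk'a : k' < a := h.loop.lt_iff.1 (by omega)
  have hb0 : 0 < t b := by
    have := h.loop.lt_iff.2 (show 0 < b by omega)
    rwa [h.loop.zero] at this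
  obtain ⟨k, hk3, hk4⟩ := h.loop.loc' (n := per T s o - i) (by omega)
  have hkK : k < K := h.loop.lt_iff.1 (by omega)
  have hbk : b < k + 1 + 1 := h.loop.lt_iff.1 (lt_of_le_of_lt (by omega : t b ≤ t (k + 1)) (h.loop.inc _))
  by_cases hbk' : b ≤ k
  · exact h.loop.adj k' k i' (per T s o - i) (by omega) (by omega) hk1 (by omega) (by omega) hk4 h5
  · -- then the time is `t b`, a common end of two pieces
    have hkb : k + 1 = b := by omega
    have h6 : per T s o - i = t b := by rw [hkb] at hk4; omega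
    rw [h6] at h5
    exact h.loop.adj k' b i' (t b) (by omega) (by omega) hk1 (by omega) le_rfl
      (h.loop.inc b).le h5

end scn

end Vale.Agent.P148.R2.H126
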