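import Vale.Agent.P148.R2.H400.Flip4
import Vale.Agent.P148.R2.H532.Expl

/-!
# P148, row N4W: arches in a partially frozen world

`T1` is the world inside a circuit (everything else contracted to `O`).  An arch is an excursion of
`T1` from `O` to `O` together with the chain `H` of members of the circuit which leads from its
landing point back to its start.  If the far part `M` of the chain is collapsed (set `F b`), and the
minority sides are joined through another collapsed set, then the excursion and the near part of the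
chain form exactly one class of the collapsed triangulation.
-/

namespace Vale.Agent.P148.R2.H126

open Function Vale.Agent.P148.R2.H258 Vale.Agent.P148.R2.H871 Vale.Agent.P148.R2.H400
  Vale.Agent.P148.R2.H532 Vale.Agent.P148.R2.H838 Vale.Agent.P148.R2.H203

variable {V V1 D : Type*} {T : Tri V D} {T1 : Tri V1 D} {π : V → V1} {O : V1}
  {σ : V → Bool} {σ1 : V1 → Bool} {ι : Type*} {F : ι → Set V} {r : ι → V}

/-- `T1` is also a contraction of the collapsed triangulation. -/
theorem contr_col (hC : Contr T T1 π) (h : Coll T F r) (hF : ∀ i, ∀ v ∈ F i, π v = O) :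
    Contr (tmap T (col F r) h.fib) T1 π where
  rev := fun d => hC.rev d
  nxt := fun d => hC.nxt d
  src := fun d => by
    change T1.src d = π (col F r (T.src d))
    rw [hC.src]
    by_cases hv : ∃ i, T.src d ∈ F i
    · obtain ⟨i, hi⟩ := hv
      rw [h.col_mem hi, hF i _ hi, hF i _ (h.root i)]
    · rw [col_not_mem (not_exists.1 hv)]

/-- An excursion of `T1` through `O` with first member `d`, last member `g`, and a chain `H` of
minority darts of `T` in the fibre of `O` which leads from its landing point back to its start. -/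
structure Arch (T : Tri V D) (T1 : Tri V1 D) (π : V → V1) (O : V1) (σ1 : V1 → Bool)
    (σ : V → Bool) (d g : D) (H : List D) : Prop where
  inj : InjOff π O
  col : ∀ v, π v ≠ O → σ v = σ1 (π v)
  mem : T1.Rel σ1 d g
  src : T1.src d = O
  apex : T1.apex d ≠ O
  apex_last : T1.apex g = O
  colx : σ (T.src d) = σ1 O
  coly : σ (T.apex g) = σ1 O
  mi : ∀ e ∈ H, T.Mi σ e
  colH : ∀ e ∈ H, σ (T.src e) = σ1 O
  fib : ∀ e ∈ H, π (T.src e) = O
  nodup : (H.map T.src).Nodup
  notmem : T.src d ∉ H.map T.src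
  chain : List.IsChain (fun a b => T.src b = T.apex a) (g :: H ++ [d])

/-- Collapsing the middle part of a chain. -/
theorem chain_collapse {f : V → V} {x : V} {A M B : List D}
    (h : List.IsChain (fun a b => T.src b = T.apex a) (A ++ M ++ B))
    (hM : ∀ e ∈ M, f (T.src e) = x ∧ f (T.apex e) = x) :
    List.IsChain (fun a b => f (T.src b) = f (T.apex a)) (A ++ B) := by
  have hmap : ∀ {L : List D}, List.IsChain (fun a b => T.src b = T.apex a) L →
      List.IsChain (fun a b => f (T.src b) = f (T.apex a)) L := by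
    intro L hL
    exact hL.imp fun a b hab => by rw [hab]
  rcases M with _ | ⟨m, M'⟩
  · simpa using hmap h
  · rw [List.append_assoc, List.isChain_append] at h
    obtain ⟨h1, h2, h3⟩ := h
    rw [List.isChain_append] at h2
    obtain ⟨h4, h5, h6⟩ := h2
    rw [List.isChain_append]
    refine ⟨hmap h1, hmap h5, ?_⟩
    intro a ha b hb
    have e1 := h3 a ha m (by simp)
    have hne : (m :: M') ≠ [] := by simp
    have e2 := h6 ((m :: M').getLast hne) (List.getLast?_eq_getLast_of_ne_nil hne ▸ rfl) b hb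
    rw [e2, (hM _ (List.getLast_mem hne)).2, ← e1, (hM m (by simp)).1]

section near

variable {d g : D} {W M W' : List D} {σ2 : V → Bool} {b w : ι}

/-- Colours of the collapsed triangulation at a vertex which is frozen at most in `F b`. -/
theorem col_black (h : Coll T F r) (h2 : ∀ v, (∀ i, v ∉ F i) → σ2 v = σ v) {c : Bool}
    (hb : σ2 (r b) = c) {v : V} (hv : σ v = c) (hf : ∀ i, v ∈ F i → i = b) :
    σ2 (col F r v) = c := by
  by_cases hv' : ∃ i, v ∈ F i
  · obtain ⟨i, hi⟩ := hv'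
    rw [h.col_mem hi, hf i hi, hb]
  · rw [col_not_mem (not_exists.1 hv'), h2 v (not_exists.1 hv'), hv]

theorem Arch.near (hC : Contr T T1 π) (hA : Arch T T1 π O σ1 σ d g (W ++ M ++ W'))
    (h : Coll T F r)
    (hF : ∀ i, ∀ v ∈ F i, π v = O) (h2 : ∀ v, (∀ i, v ∉ F i) → σ2 v = σ v)
    (hb : σ2 (r b) = σ1 O) (hw : σ2 (r w) ≠ σ1 O)
    (hM : ∀ e ∈ M, T.src e ∈ F b ∧ T.apex e ∈ F b)
    (hs : ∀ e ∈ W ++ W', ∀ i, T.src e ∈ F i → i = b)
    (ha : ∀ e ∈ W ++ W', ∀ i, T.apex e ∈ F i → i = b)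
    (ht : ∀ e ∈ W ++ W', ∀ i, T.tgt e ∈ F i → i = w)
    (hd : ∀ i, T.src d ∈ F i → i = b) (hg : ∀ i, T.apex g ∈ F i → i = b)
    (hone : ((W ++ W' ++ [d]).map fun e => H532.col F r (T.src e)).Nodup)
    (hwalk : ∀ e ∈ W ++ W', ∃ l, (tmap T (H532.col F r) h.fib).Walk (H532.col F r (T.tgt d))
      (H532.col F r (T.tgt e)) l ∧ ∀ e' ∈ l, σ2 (H532.col F r (T.src e')) ≠ σ1 O ∧
        σ2 (H532.col F r (T.tgt e')) ≠ σ1 O) :
    Captured (tmap T (H532.col F r) h.fib) T1 π O σ1 σ2 d g (W ++ W') := by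
  have hsub : ∀ e ∈ W ++ W', e ∈ W ++ M ++ W' := by
    intro e he
    simp only [List.mem_append] at he ⊢
    tauto
  have hnf : ∀ v, π v ≠ O → ∀ i, v ∉ F i := fun v hv i hi => hv (hF i v hi)
  have hcol : ∀ v, π v ≠ O → σ2 v = σ1 (π v) := fun v hv => by
    rw [h2 v (hnf v hv), hA.col v hv]
  have hd1 : T1.Mi σ1 d := hA.mem.1
  have htd : σ2 (H532.col F r (T.tgt d)) ≠ σ1 O := by
    have h1 : T1.tgt d ≠ O := by
      intro hh
      exact hd1.1 (by rw [hA.src, hh])
    have h3 : π (T.tgt d) ≠ O := by rwa [← hC.tgt]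
    rw [col_not_mem (hnf _ h3), hcol _ h3, ← hC.tgt]
    intro hh
    exact hd1.1 (by rw [hA.src, hh])
  have bne : ∀ {x y z : Bool}, x ≠ z → y ≠ z → x = y := by decide
  refine ⟨hA.inj, hcol, hA.mem, hA.src, hA.apex, hA.apex_last, ?_, ?_, ?_, ?_, ?_, ?_, ?_, ?_⟩
  · exact col_black h h2 hb hA.colx hd
  · exact col_black h h2 hb hA.coly hg
  · intro e he
    have hmi := hA.mi e (hsub e he)
    have hce := hA.colH e (hsub e he)
    have e1 : σ2 (H532.col F r (T.src e)) = σ1 O := col_black h h2 hb hce (hs e he)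
    have e2 : σ2 (H532.col F r (T.apex e)) = σ1 O :=
      col_black h h2 hb (by rw [hmi.2, hce]) (ha e he)
    have e3 : σ2 (H532.col F r (T.tgt e)) ≠ σ1 O := by
      by_cases hv : ∃ i, T.tgt e ∈ F i
      · obtain ⟨i, hi⟩ := hv
        rw [h.col_mem hi, ht e he i hi]
        exact hw
      · rw [col_not_mem (not_exists.1 hv), h2 _ (not_exists.1 hv), ← hce]
        exact hmi.1.symm
    refine ⟨?_, ?_⟩
    · change σ2 (H532.col F r (T.src e)) ≠ σ2 (H532.col F r (T.tgt e))
      rw [e1]; exact e3.symm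
    · change σ2 (H532.col F r (T.apex e)) = σ2 (H532.col F r (T.src e))
      rw [e1, e2]
  · intro e he
    change π (H532.col F r (T.src e)) = O
    by_cases hv : ∃ i, T.src e ∈ F i
    · obtain ⟨i, hi⟩ := hv
      rw [h.col_mem hi, hF i _ (h.root i)]
    · rw [col_not_mem (not_exists.1 hv), hA.fib e (hsub e he)]
  · rw [List.map_append] at hone
    exact (List.nodup_append.1 hone).1
  · rw [List.map_append, List.nodup_append] at hone
    intro hmem
    exact hone.2.2 _ hmem (H532.col F r (T.src d)) (by simp) rfl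
  · have hch : List.IsChain (fun a b => T.src b = T.apex a) ((g :: W) ++ M ++ (W' ++ [d])) := by
      have := hA.chain
      simpa only [List.cons_append, List.append_assoc] using this
    have := chain_collapse (f := H532.col F r) (x := r b) hch
      (fun e he => ⟨h.col_mem (hM e he).1, h.col_mem (hM e he).2⟩)
    rw [show g :: (W ++ W') ++ [d] = (g :: W) ++ (W' ++ [d]) by simp]
    exact this
  · intro e he
    obtain ⟨l, hl, hl2⟩ := hwalk e he
    refine ⟨l, hl, fun e' he' => ?_⟩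
    exact ⟨bne (hl2 e' he').1 htd, bne (hl2 e' he').2 htd⟩

/-- Walks in a contraction. -/
theorem walk_contr {V2 : Type*} {T2 : Tri V2 D} {f : V → V2} (hC : Contr T T2 f) {u v : V}
    {l : List D} (h : T.Walk u v l) : T2.Walk (f u) (f v) l := by
  induction h with
  | nil v => exact Tri.Walk.nil _
  | cons d w l _ ih =>
    refine Tri.Walk.cons' d (hC.src d) ?_
    rw [hC.tgt]
    exact ih

theorem walk_end {P : V → Prop} {u v : V} {l : List D} (h : T.Walk u v l) (hu : P u)
    (hl : ∀ e ∈ l, P (T.tgt e)) : P v := by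
  induction h with
  | nil v => exact hu
  | cons d w l _ ih => exact ih (hl d (by simp)) fun e he => hl e (List.mem_cons_of_mem _ he)

/-- The minority walk from the start of a captured excursion to a chain member, in the collapsed
triangulation. -/
theorem near_walk (hC : Contr T T1 π) (hA : Arch T T1 π O σ1 σ d g (W ++ M ++ W'))
    (h : Coll T F r) (hF : ∀ i, ∀ v ∈ F i, π v = O) (h2 : ∀ v, (∀ i, v ∉ F i) → σ2 v = σ v)
    (hw : σ2 (r w) ≠ σ1 O) {J : Set D} (hcap : Cap T1 J σ1 d) (hJ : ∀ β ∈ J, T.src β ∈ F w)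
    {e : D} {u : V} (hu : u ∈ F w) {l : List D} (hl : T.Walk u (T.tgt e) l)
    (hl2 : ∀ e' ∈ l, (σ (T.src e') ≠ σ1 O ∧ ∀ i, T.src e' ∈ F i → i = w) ∧
      (σ (T.tgt e') ≠ σ1 O ∧ ∀ i, T.tgt e' ∈ F i → i = w)) :
    ∃ l, (tmap T (H532.col F r) h.fib).Walk (H532.col F r (T.tgt d))
      (H532.col F r (T.tgt e)) l ∧ ∀ e' ∈ l, σ2 (H532.col F r (T.src e')) ≠ σ1 O ∧
        σ2 (H532.col F r (T.tgt e')) ≠ σ1 O := by
  have hC2 : Contr T (tmap T (H532.col F r) h.fib) (H532.col F r) := tmap_contr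
  have hnf : ∀ v, π v ≠ O → ∀ i, v ∉ F i := fun v hv i hi => hv (hF i v hi)
  have hcol : ∀ v, π v ≠ O → σ2 v = σ1 (π v) := fun v hv => by
    rw [h2 v (hnf v hv), hA.col v hv]
  have hd1 : T1.Mi σ1 d := hA.mem.1
  have htO : σ1 (T1.tgt d) ≠ σ1 O := by
    intro hh
    exact hd1.1 (by rw [hA.src, hh])
  have hneO : ∀ v, σ1 v = σ1 (T1.tgt d) → v ≠ O := by
    rintro v hv rfl
    exact htO hv.symm
  have hwhite : ∀ v, (σ v ≠ σ1 O ∧ ∀ i, v ∈ F i → i = w) → σ2 (H532.col F r v) ≠ σ1 O := by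
    rintro v ⟨hv1, hv2⟩
    by_cases hv : ∃ i, v ∈ F i
    · obtain ⟨i, hi⟩ := hv
      rw [h.col_mem hi, hv2 i hi]
      exact hw
    · rw [col_not_mem (not_exists.1 hv), h2 _ (not_exists.1 hv)]
      exact hv1
  -- free vertices
  have hfree : ∀ v, π v ≠ O → σ1 (π v) = σ1 (T1.tgt d) → σ2 (H532.col F r v) ≠ σ1 O := by
    intro v hv h3
    rw [col_not_mem (hnf v hv), hcol v hv, h3]
    exact htO
  obtain ⟨β, hβ, hj1, hj2, m, hm, hm2⟩ := hcap
  -- first part: in the free region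
  have hm3 : T.Walk (T.tgt d) (T.tgt β) m := by
    refine H400.lift_walk hC hA.inj hm ?_ (hC.tgt d).symm (hC.tgt β).symm (hneO _ rfl)
    intro e' he'
    exact ⟨hneO _ (hm2 e' he').1.1, hneO _ (hm2 e' he').2.1⟩
  have hβc : σ1 (T1.tgt β) = σ1 (T1.tgt d) :=
    walk_end (P := fun v => σ1 v = σ1 (T1.tgt d)) hm rfl fun e' he' => (hm2 e' he').2.1
  have hβne : T1.tgt β ≠ O := hneO _ hβc
  have p1 := walk_contr hC2 hm3
  -- second part: the edge to the frozen set
  have p2 : (tmap T (H532.col F r) h.fib).Walk (H532.col F r (T.tgt β)) (H532.col F r u)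
      [T.rev β] := by
    refine Tri.Walk.cons' _ ?_ ?_
    · change H532.col F r (T.src (T.rev β)) = _
      rw [T.src_rev]
    · have : (tmap T (H532.col F r) h.fib).tgt (T.rev β) = H532.col F r u := by
        rw [tmap_tgt, T.tgt_rev, h.col_mem (hJ β hβ), h.col_mem hu]
      rw [this]
      exact Tri.Walk.nil _
  have p3 := walk_contr hC2 hl
  refine ⟨m ++ ([T.rev β] ++ l), p1.append (p2.append p3), ?_⟩
  intro e' he'
  rcases List.mem_append.1 he' with h3 | h3
  · obtain ⟨⟨h4, -⟩, h5, -⟩ := hm2 e' h3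
    rw [hC.src] at h4
    rw [hC.tgt] at h5
    refine ⟨hfree _ ?_ h4, hfree _ ?_ h5⟩
    · exact hneO _ h4
    · exact hneO _ h5
  · rcases List.mem_append.1 h3 with h4 | h4
    · rw [List.mem_singleton] at h4
      rw [h4, T.src_rev, T.tgt_rev]
      refine ⟨hfree _ (by rwa [← hC.tgt]) ?_, ?_⟩
      · rw [← hC.tgt]; exact hβc
      · rw [h.col_mem (hJ β hβ)]; exact hw
    · exact ⟨hwhite _ (hl2 e' h4).1, hwhite _ (hl2 e' h4).2⟩

end near

/-! ### energy of the near parts -/

section energy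

variable {V2 : Type*} {T2 : Tri V2 D} {π2 : V2 → V1} {σ2 : V2 → Bool}

/-- Two excursions from `O` in one class start at the same dart. -/
theorem start_unique [Finite D] (hP1 : T1.Planar) {d e : D} (hd : T1.src d = O) (he : T1.src e = O)
    (ha : T1.apex d ≠ O) (hr : T1.Rel σ1 d e) : d = e := by
  obtain ⟨m, f, hm, hf0, hfm, hs, hinj, hrel, -⟩ :=
    T1.class_cycle hP1 hr.1 (by rw [hd]; exact ha)
  obtain ⟨i, hi, rfl⟩ := (hrel e).1 hr
  have h4 : T1.src (f i) = T1.src (f 0) := by rw [he, hf0, hd]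
  have h5 := hinj i hi 0 (by omega) h4
  rw [h5, hf0]

theorem tot_rs_le [Fintype D] {A : D → Prop} (hA : Sat T1 σ1 A) (Θ : D → ℂ) :
    tot T1 σ1 (rs A Θ) ≤ tot T1 σ1 Θ := by
  have h1 := hA.tot_split Θ
  have h2 := tot_nonneg T1 σ1 (rs (fun d => ¬ A d) Θ)
  linarith

/-- **The closing chains of a family of captured excursions** in a world `T2` cost at most the
energies of the two worlds. -/
theorem sum_chain_le [Fintype D] (hP2 : T2.Planar) (hP1 : T1.Planar) (hC : Contr T2 T1 π2)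
    {S : Finset D} {g : D → D} {L : D → List D} (h : CapFam T2 T1 π2 O σ1 σ2 S g L) (Θ : D → ℂ) :
    ∑ d ∈ S, ‖((L d).map Θ).sum‖ ^ 2 ≤ 2 * tot T2 σ2 Θ + 2 * tot T1 σ1 Θ := by
  have h1 := sum_cls_le_tot S (h.mi hP2 hP1 hC) (h.inj hP2 hP1 hC) Θ
  have h2 : ∑ d ∈ S, ‖T1.cls σ1 d Θ‖ ^ 2 ≤ tot T1 σ1 Θ := by
    have h3 := sum_cls_le_tot (T := T1) (σ := σ1) S (fun d hd => (h.cap d hd).mem.1)
      (fun d hd e he hr => start_unique hP1 (h.cap d hd).src (h.cap e he).src (h.cap d hd).apex hr) Θ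
    exact h3.trans (tot_rs_le (sat_union S) Θ)
  have h4 := h1.trans (tot_rs_le (sat_union (T := T2) (σ := σ2) S) Θ)
  calc ∑ d ∈ S, ‖((L d).map Θ).sum‖ ^ 2
      ≤ ∑ d ∈ S, (2 * ‖T2.cls σ2 d Θ‖ ^ 2 + 2 * ‖T1.cls σ1 d Θ‖ ^ 2) := by
        apply Finset.sum_le_sum
        intro d hd
        have h5 := (h.cap d hd).cls_eq hP2 hP1 hC Θ
        have h6 : ((L d).map Θ).sum = T2.cls σ2 d Θ + -T1.cls σ1 d Θ := by rw [h5]; ring
        rw [h6]
        have := sq_add_le (T2.cls σ2 d Θ) (-T1.cls σ1 d Θ)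
        rwa [norm_neg] at this
    _ = 2 * ∑ d ∈ S, ‖T2.cls σ2 d Θ‖ ^ 2 + 2 * ∑ d ∈ S, ‖T1.cls σ1 d Θ‖ ^ 2 := by
        rw [Finset.sum_add_distrib, Finset.mul_sum, Finset.mul_sum]
    _ ≤ 2 * tot T2 σ2 Θ + 2 * tot T1 σ1 Θ := by linarith

end energy

end Vale.Agent.P148.R2.H126
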