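import Vale.Agent.P148.R2.H126.Blk

/-!
# P148, row N4W: the window for another colouring of the unseen vertices

`Win.recol` : the window of a colouring which agrees with `s` on what the loop sees.
`BW.seenEq` : `glue (Rs …) s z` is such a colouring.
`BW.mid`, `BW.near`, `BW.q_le`, `BW.out` : the middle of the arc, near members, far members.
-/

set_option linter.unusedSectionVars false

namespace Vale.Agent.P148.R2.H126

open Function Vale.Agent.P148.R2.H258 Vale.Agent.P148.R2.H871 Vale.Agent.P148.R2.H400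
  Vale.Agent.P148.R2.H532 Vale.Agent.P148.R2.H838 Vale.Agent.P148.R2.H203
  Vale.Agent.P148.R2.H565 Vale.Agent.P148.R2.H659

variable {V V1 D : Type*} {T : Tri V D} {T1 : Tri V1 D} {π : V → V1} {O : V1} {s σ : V → Bool}
  {n : ℕ} {c : ℕ → D} {τ : ℕ → ℕ}
variable {ι : Type*} {F : ι → Set V} {r : ι → V} {b1 b2 w : ι} {m1 m2 t2 t1 q : ℕ}

/-- Two colourings which agree on everything seen by the strand of `d`. -/
def SeenEq (T : Tri V D) (s σ : V → Bool) (d : D) : Prop :=
  ∀ m, σ (T.src ((T.st s)^[m] d)) = s (T.src ((T.st s)^[m] d)) ∧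
    σ (T.tgt ((T.st s)^[m] d)) = s (T.tgt ((T.st s)^[m] d))

theorem SeenEq.iter {d : D} (h : SeenEq T s σ d) (m : ℕ) : (T.st σ)^[m] d = (T.st s)^[m] d := by
  refine iter_congr T (σ := s) (σ' := σ) (d := d) (t := m) (fun v hv => ?_) m le_rfl
  obtain ⟨i, -, hi⟩ := hv
  rcases hi with hi | hi
  · rw [← hi]; exact (h i).1
  · rw [← hi]; exact (h i).2

theorem SeenEq.per {d : D} (h : SeenEq T s σ d) : H871.per T σ d = H871.per T s d := by
  apply Nat.dvd_antisymm
  · apply IsPeriodicPt.minimalPeriod_dvd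
    change (T.st σ)^[H871.per T s d] d = d
    rw [h.iter]
    exact isPeriodicPt_minimalPeriod (T.st s) d
  · apply IsPeriodicPt.minimalPeriod_dvd
    change (T.st s)^[H871.per T σ d] d = d
    rw [← h.iter]
    exact isPeriodicPt_minimalPeriod (T.st σ) d

theorem SeenEq.sa {d : D} (h : SeenEq T s σ d) (m : ℕ) : sa T σ d m = sa T s d m := by
  unfold H871.sa
  rw [h.iter]

theorem SeenEq.apex {d : D} (h : SeenEq T s σ d) (hb : T.Bi s d) (m : ℕ) :
    σ (T.apex ((T.st s)^[m] d)) = s (T.apex ((T.st s)^[m] d)) := by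
  have hb' : T.Bi s ((T.st s)^[m] d) := (T.bi_iter m).2 hb
  have h1 := h (m + 1)
  rw [iterate_succ', comp_apply] at h1
  rcases apex_next hb' with h2 | h2
  · rw [h2]; exact h1.1
  · rw [h2]; exact h1.2

theorem SeenEq.mi {d : D} (h : SeenEq T s σ d) (hb : T.Bi s d) (m : ℕ)
    (hm : T.Mi s ((T.st s)^[m] d)) : T.Mi σ ((T.st s)^[m] d) := by
  obtain ⟨h1, h2⟩ := h m
  have h3 := h.apex hb m
  unfold Tri.Mi at hm ⊢
  rw [h1, h2, h3]
  exact hm

theorem SeenEq.vb {d : D} (h : SeenEq T s σ d) (a b : ℕ) : VB T σ d a b = VB T s d a b := by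
  unfold VB
  simp only [h.sa]

theorem ring_recol (h : H659.Ring T π O s c n) (hs : SeenEq T s σ (c 0)) :
    H659.Ring T π O σ c n where
  pos := h.pos
  mi i hi := by
    obtain ⟨k, hk⟩ := h.str i hi
    have := hs.mi (h.mi 0 h.pos).bi k (by rw [hk]; exact h.mi i hi)
    rwa [hk] at this
  str i hi := by
    obtain ⟨k, hk⟩ := h.str i hi
    exact ⟨k, by rw [hs.iter]; exact hk⟩
  next := h.next
  close := h.close
  inj := h.inj
  seen k := by rw [hs.iter]; exact h.seen k
  ring := h.ring

theorem tm_recol (h : Tm T s c n τ) (hs : SeenEq T s σ (c 0)) : Tm T σ c n τ where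
  lt i hi := by rw [hs.per]; exact h.lt i hi
  it i hi := by rw [hs.iter]; exact h.it i hi
  dis i hi := by
    intro a b h1 h2 h3 h4
    change b ≤ H871.per T σ (c 0) at h4
    rw [hs.per] at h4
    rw [hs.iter, hs.iter]
    exact h.dis i hi a b h1 h2 h3 h4

/-- **The window for another colouring.** -/
theorem Win.recol (h : Win T π O s c n τ F r b1 b2 w m1 m2 t2 t1 q) (hs : SeenEq T s σ (c 0)) :
    Win T π O σ c n τ F r b1 b2 w m1 m2 t2 t1 q where
  ring := ring_recol h.ring hs
  tm := tm_recol h.tm hs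
  coll := h.coll
  fibF := h.fibF
  all := h.all
  ne := h.ne
  hm := h.hm
  ht := h.ht
  htp := by rw [hs.per]; exact h.htp
  ht2 := by rw [hs.per]; exact h.ht2
  F1 := by rw [hs.vb, hs.per]; exact h.F1
  F2 := by rw [hs.vb]; exact h.F2
  hqn := h.hqn
  hq1 := h.hq1
  hq2 := h.hq2
  near t h1 h2 := by rw [hs.sa]; exact h.near t h1 h2
  u0 := by rw [hs.iter]; exact h.u0

section bw

variable {K : ℕ} {o : D} {t : ℕ → ℕ} {X : ℕ → Set V} {N N' : Set V} {L rr p a b : ℕ}

variable (h : BW T π O s K o t n c τ X N N' L rr p a b)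
include h

/-- The colouring `s` on what the loop sees, `z` elsewhere. -/
theorem BW.seenEq [Finite D] (z : V → Bool) :
    SeenEq T s (H953.glue (Rs T L N N' ((T.st s)^[t rr] o) s) s z) (c 0) := by
  intro m
  rw [h.it0]
  obtain ⟨m', hm'⟩ := iter_bk T s o (t rr) (m + τ 0)
  rw [← hm']
  obtain ⟨h1, h2⟩ := h.scn.seen_Rs m'
  exact ⟨if_pos h1, if_pos h2⟩

/-- Members late enough have index at least `q`. -/
theorem BW.q_le {q i : ℕ} (hq : τ q < t (rr + p + 1)) (hqn : q < n) (hi : t (rr + p + 1) ≤ τ i) :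
    q ≤ i := by
  by_contra hc
  have := h.tau_mono (show i ≤ q by omega) hqn
  omega

/-- The sources in the middle of the arc are in the white class. -/
theorem BW.mid [Finite D] {i : ℕ} (h1 : t (rr + 1) ≤ i) (h2 : i ≤ t (rr + p - 1)) :
    sa T s o i ∈ FX T L N ((T.st s)^[t rr] o, (T.st s)^[t (rr + p)] o) s none := by
  have hS := h.scn
  have e1 := hS.A_ge
  have e2 := hS.A_lt
  have e3 := hS.B_ge
  have e4 := hS.B_le
  have e5 := hS.tJ_eq
  have hp1 := hS.p1
  have hpa := hS.pa
  have hab := hS.ab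
  have hbK := hS.bK
  have hra := h.ra
  have hr := h.hr
  set A := tA T L N ((T.st s)^[t rr] o) s with hA
  set B := tB T L N ((T.st s)^[t rr] o) s with hB
  have hper : per T s ((T.st s)^[t rr] o) = per T s o := per_iter T s o _
  rw [hper] at e3 e4
  beta_reduce at e1 e2 e3 e4 e5
  have m1 : t rr < t (rr + 1) := h.feet.inc _
  have m1' : t (rr + p - 1) < t (rr + p) := h.feet.smono (by omega)
  have m2 : t (rr + p) ≤ t (rr + (a - 1)) := h.feet.mono (by omega)
  have m3 : t (rr + a) ≤ t (rr + b) := h.feet.mono (by omega)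
  have m6 : t rr < t (rr + b) := h.feet.smono (by omega)
  have hKper := h.tK
  have hoo : (T.st s)^[t (rr + p) - t rr] ((T.st s)^[t rr] o) = (T.st s)^[t (rr + p)] o := by
    rw [← iterate_add_apply, show t (rr + p) - t rr + t rr = t (rr + p) by omega]
  rw [hoo] at e5
  have hFX : FX T L N ((T.st s)^[t rr] o, (T.st s)^[t (rr + p)] o) s =
      FF T s ((T.st s)^[t rr] o) (t (rr + p) - t rr) A B := by
    unfold FX
    rw [e5]
  rw [hFX]
  right
  refine ⟨⟨i - t rr, by omega, by omega, ?_⟩, ?_, ?_⟩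
  · rw [← iterate_add_apply, show i - t rr + t rr = i by omega]
    rfl
  · -- not in the first black class
    intro h3
    obtain ⟨j, hj, h4⟩ := (mem_F1 (T := T) (s := s) (o := (T.st s)^[t rr] o)
      (j := t (rr + p) - t rr) (a := A) (b := B)).1 h3
    rw [Scn.back (by rw [hper]; omega), T.tgt_rev, hper, ← iterate_add_apply] at h4
    change sa T s o (per T s o - j + t rr) = sa T s o i at h4
    obtain ⟨k, k1, k2⟩ := h.feet.loc i
    obtain ⟨l, l1, l2⟩ := h.feet.loc' (m := per T s o - j + t rr) (by omega)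
    have a1 : rr + 1 < k + 1 := by
      by_contra hc
      have := h.feet.mono (show k + 1 ≤ rr + 1 by omega)
      omega
    have a2 : k < rr + p := by
      by_contra hc
      have := h.feet.mono (show rr + p ≤ k by omega)
      omega
    have a3 : rr + b ≤ l + 1 := by
      by_contra hc
      have := h.feet.smono (show l + 1 < rr + b by omega)
      omega
    have a4 : l < rr + K := by
      by_contra hc
      have := h.feet.mono (show rr + K ≤ l by omega)
      have := h.feet.add rr
      omega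
    exact h.feet.far k l i (per T s o - j + t rr) (by omega) (by omega) k1 k2.le l1.le l2 h4.symm
  · intro h3
    obtain ⟨j, h4, h5, h6⟩ := (mem_F2 (T := T) (s := s) (o := (T.st s)^[t rr] o)
      (j := t (rr + p) - t rr) (a := A) (b := B) (by omega)).1 h3
    rw [← iterate_add_apply] at h6
    change sa T s o (j + t rr) = sa T s o i at h6
    obtain ⟨k, k1, k2⟩ := h.feet.loc' (m := i) (by omega)
    obtain ⟨l, l1, l2⟩ := h.feet.loc (j + t rr)
    have a1 : rr < k + 1 := by
      by_contra hc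
      have := h.feet.mono (show k + 1 ≤ rr by omega)
      omega
    have a2 : k < rr + p - 1 := by
      by_contra hc
      have := h.feet.mono (show rr + p - 1 ≤ k by omega)
      omega
    have a3 : rr + p < l + 1 := by
      by_contra hc
      have := h.feet.mono (show l + 1 ≤ rr + p by omega)
      omega
    have a4 : l < rr + a := by
      by_contra hc
      have := h.feet.mono (show rr + a ≤ l by omega)
      omega
    exact h.feet.far k l i (j + t rr) (by omega) (by omega) k1.le k2 l1 l2.le h6.symm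

/-- **Near members.** The members in the pieces `rr + a + 1, …, rr + b - 1` are near. -/
theorem BW.near [Finite D] (hP : T.Planar) {q i u : ℕ}
    (hW : Win T π O s c n (fun i => τ i - τ 0)
      (FX T L N ((T.st s)^[t rr] o, (T.st s)^[t (rr + p)] o) s)
      (rX T L N ((T.st s)^[t rr] o, (T.st s)^[t (rr + p)] o) s) (some true) (some false) none
      (t rr - τ 0) (t (rr + p) - τ 0) (t rr + tA T L N ((T.st s)^[t rr] o) s - τ 0)
      (t rr + (per T s o - tB T L N ((T.st s)^[t rr] o) s) - τ 0) q)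
    (hq : τ q < t (rr + p + 1)) (hi : i < n) (h1 : t u ≤ τ i) (h2 : τ i < t (u + 1))
    (hu : rr + a + 1 ≤ u) (hu' : u + 1 ≤ rr + b) :
    Near T (FX T L N ((T.st s)^[t rr] o, (T.st s)^[t (rr + p)] o) s) (some true) (some false) c i := by
  have hS := h.scn
  have e2 := hS.A_lt
  have e4 := hS.B_le
  have hpa := hS.pa
  have hab := hS.ab
  have hbK := hS.bK
  have hper : per T s ((T.st s)^[t rr] o) = per T s o := per_iter T s o _
  rw [hper] at e4
  beta_reduce at e2 e4
  set A := tA T L N ((T.st s)^[t rr] o) s with hA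
  set B := tB T L N ((T.st s)^[t rr] o) s with hB
  have m3 : t (rr + p + 1) ≤ t u := h.feet.mono (by omega)
  have m4 : t (u + 1) ≤ t (rr + b) := h.feet.mono (by omega)
  have m5 : t (rr + a + 1) ≤ t u := h.feet.mono hu
  have m6 : t rr < t (rr + a) := h.feet.smono (by omega)
  have m7 : t rr < t (rr + b) := h.feet.smono (by omega)
  have htau := h.tau0 hP
  have hqi : q ≤ i := h.q_le hq hW.hqn (by omega)
  have hKper := h.tK
  have hlt := h.loop.lt i hi
  have huK : u < K := by
    by_contra hc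
    have := h.feet.mono (show K ≤ u by omega)
    omega
  constructor
  · rw [hW.src_mem1 hqi hi]
    omega
  · rw [hW.src_mem2 hqi hi]
    rintro (h3 | h3)
    · subst h3
      omega
    · obtain ⟨i1, g1, g2, g3⟩ := h.mem_piece hP (k := rr + a) (by omega) (by omega)
      have g4 : i1 < i := by
        by_contra hc
        have := h.tau_mono (show i ≤ i1 by omega) g1
        omega
      have g5 := h.tau_mono (show i1 ≤ i - 1 by omega) (show i - 1 < n by omega)
      omega

/-- **Far members have weight zero.** -/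
theorem BW.zero [Finite D] (hP : T.Planar) {q : ℕ}
    (hW : Win T π O s c n (fun i => τ i - τ 0)
      (FX T L N ((T.st s)^[t rr] o, (T.st s)^[t (rr + p)] o) s)
      (rX T L N ((T.st s)^[t rr] o, (T.st s)^[t (rr + p)] o) s) (some true) (some false) none
      (t rr - τ 0) (t (rr + p) - τ 0) (t rr + tA T L N ((T.st s)^[t rr] o) s - τ 0)
      (t rr + (per T s o - tB T L N ((T.st s)^[t rr] o) s) - τ 0) q)
    {ϑ : D → ℂ} (hϑ : ∀ i < n, ∀ u, t u ≤ τ i → τ i < t (u + 1) → rr + p ≤ u → ϑ (c i) ≠ 0 →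
      rr + a ≤ u ∧ u < rr + b) (i : ℕ) (hqi : q ≤ i) (hi : i < n)
    (h1 : τ i - τ 0 < t rr + tA T L N ((T.st s)^[t rr] o) s - τ 0 ∨
      t rr + (per T s o - tB T L N ((T.st s)^[t rr] o) s) - τ 0 ≤ τ i - τ 0) : ϑ (c i) = 0 := by
  by_contra hne
  have hS := h.scn
  have e2 := hS.A_lt
  have e4 := hS.B_le
  have hpa := hS.pa
  have hab := hS.ab
  have hper : per T s ((T.st s)^[t rr] o) = per T s o := per_iter T s o _
  rw [hper] at e4
  beta_reduce at e2 e4
  set A := tA T L N ((T.st s)^[t rr] o) s with hA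
  set B := tB T L N ((T.st s)^[t rr] o) s with hB
  have hq1 := hW.hq1
  beta_reduce at hq1
  have htau := h.tau0 hP
  have m0 := h.tau_mono hqi hi
  have m1 : t rr ≤ t (rr + p) := h.feet.mono (by omega)
  have m6 : t rr < t (rr + a) := h.feet.smono (by omega)
  have m7 : t rr < t (rr + b) := h.feet.smono (by omega)
  obtain ⟨u, hu1, hu2⟩ := h.feet.loc (τ i)
  have hup : rr + p ≤ u := by
    by_contra hc
    have := h.feet.mono (show u + 1 ≤ rr + p by omega)
    omega
  obtain ⟨g1, g2⟩ := hϑ i hi u hu1 hu2 hup hne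
  have m2 := h.feet.mono g1
  have m3 := h.feet.mono (show u + 1 ≤ rr + b by omega)
  omega

/-- The frozen vertices are seen in far pieces. -/
theorem BW.far [Finite D] {i : Option Bool} {v : V}
    (hv : v ∈ FX T L N ((T.st s)^[t rr] o, (T.st s)^[t (rr + p)] o) s i) :
    ∃ u < K, (u < a ∨ b ≤ u) ∧ v ∈ X u := by
  have hU : v ∈ Ss T L N ((T.st s)^[t rr] o) s := by
    have h1 := Set.mem_iUnion.2 ⟨i, hv⟩
    rwa [iUnion_FX] at h1
  obtain ⟨o', ho'⟩ : ∃ o', o' = (T.st s)^[t rr] o := ⟨_, rfl⟩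
  obtain ⟨t', ht'⟩ : ∃ t' : ℕ → ℕ, t' = fun k => t (rr + k) - t rr := ⟨_, rfl⟩
  have hS : Scn T s K o' t' X N N' L p a b := by rw [ho', ht']; exact h.scn
  rw [← ho'] at hU
  have e2 := hS.A_lt
  have e4 := hS.B_le
  have hpa := hS.pa
  have hab := hS.ab
  have hbK := hS.bK
  have htK := hS.tK
  have key : ∀ m ≤ per T s o', (m < t' a ∨ t' b ≤ m) →
      (T.src ((T.st s)^[m] o') = v ∨ T.tgt ((T.st s)^[m] o') = v) →
      ∃ u < K, (u < a ∨ b ≤ u) ∧ v ∈ X u := by
    intro m hm hm2 hm3
    rcases hm.lt_or_eq with hm4 | hm4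
    · obtain ⟨u, hu1, hu2⟩ := hS.loop.loc m
      have huK : u < K := by
        by_contra hc
        have := hS.loop.mono (show K ≤ u by omega)
        omega
      refine ⟨u, huK, ?_, ?_⟩
      · rcases hm2 with h1 | h1
        · left
          by_contra hc
          have := hS.loop.mono (show a ≤ u by omega)
          omega
        · right
          by_contra hc
          have := hS.loop.mono (show u + 1 ≤ b by omega)
          omega
      · obtain ⟨g1, g2, -⟩ := hS.seen u m hu1 hu2
        rcases hm3 with h1 | h1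
        · rw [← h1]; exact g1
        · rw [← h1]; exact g2
    · have e0 : (T.st s)^[m] o' = (T.st s)^[0] o' := by
        rw [hm4]
        exact isPeriodicPt_minimalPeriod (T.st s) o'
      rw [e0] at hm3
      obtain ⟨g1, g2, -⟩ := hS.seen 0 0 (by rw [hS.loop.zero]) (by
        have := hS.loop.inc 0
        rw [hS.loop.zero] at this
        exact this)
      refine ⟨0, by omega, Or.inl (by omega), ?_⟩
      rcases hm3 with h1 | h1
      · rw [← h1]; exact g1
      · rw [← h1]; exact g2
  have hta : t' a ≤ t' K := hS.loop.mono (by omega)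
  rcases hU with ⟨m, hm, hm2⟩ | ⟨m, hm, hm2⟩
  · exact key m (by omega) (Or.inl (by omega)) hm2
  · rw [Scn.back (by omega), T.src_rev, T.tgt_rev] at hm2
    exact key (per T s o' - m) (by omega) (Or.inr (by omega)) hm2.symm

/-- Faces near the cell are good in the world with the frozen far sets. -/
theorem BW.cgood [Finite D] {ϑ : D → ℂ} (hg : ∀ d, ϑ d ≠ 0 → T.Good d ∧ ∀ u < K, (u < a ∨ b ≤ u) →
      T.src d ∉ X u ∧ T.tgt d ∉ X u ∧ T.apex d ∉ X u)
    (hc : Coll T (FX T L N ((T.st s)^[t rr] o, (T.st s)^[t (rr + p)] o) s)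
      (rX T L N ((T.st s)^[t rr] o, (T.st s)^[t (rr + p)] o) s)) (d : D) (hd : ϑ d ≠ 0) :
    H532.cgood T (FX T L N ((T.st s)^[t rr] o, (T.st s)^[t (rr + p)] o) s)
      (rX T L N ((T.st s)^[t rr] o, (T.st s)^[t (rr + p)] o) s) d := by
  obtain ⟨h1, h2⟩ := hg d hd
  refine cgood_of hc h1 fun i => ⟨fun h3 => ?_, fun h3 => ?_, fun h3 => ?_⟩
  · obtain ⟨u, hu, hu1, hu2⟩ := h.far h3.1
    exact (h2 u hu hu1).1 hu2
  · obtain ⟨u, hu, hu1, hu2⟩ := h.far h3.1
    exact (h2 u hu hu1).2.1 hu2
  · obtain ⟨u, hu, hu1, hu2⟩ := h.far h3.1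
    exact (h2 u hu hu1).2.2 hu2

end bw

end Vale.Agent.P148.R2.H126
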