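import Vale.Agent.P148.R2.H126.Near
import Vale.Agent.P148.R2.H659.Close1

/-!
# P148, row N4W: the windows of the captured excursions

`c 0, …, c (n-1)` is the main cycle of the closed loop, `τ i` the time of `c i`.  Far sets: `F b1` =
sources at times in `[t1, per + m1]`, `F b2` = sources at times in `[m2, t2]`; `F w` contains the middle
of `J` (times in `(m1, m2)`).  The near window is `(t2, t1)`.  The closing chains of the captured
excursions which land or start at a near vertex of the cycle cost at most the energies of two worlds.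
-/

namespace Vale.Agent.P148.R2.H126

open Function Vale.Agent.P148.R2.H258 Vale.Agent.P148.R2.H871 Vale.Agent.P148.R2.H400
  Vale.Agent.P148.R2.H532 Vale.Agent.P148.R2.H838 Vale.Agent.P148.R2.H203

variable {V V1 D : Type*} {T : Tri V D} {T1 : Tri V1 D} {π : V → V1} {O : V1}
  {σ : V → Bool} {σ1 : V1 → Bool} {c : ℕ → D} {n : ℕ} {τ : ℕ → ℕ}

/-! ### times of the members of the cycle -/

/-- `τ i` is the time of the member `c i` of the cycle. -/
structure Tm (T : Tri V D) (σ : V → Bool) (c : ℕ → D) (n : ℕ) (τ : ℕ → ℕ) : Prop where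
  lt : ∀ i < n, τ i < per T σ (c 0)
  it : ∀ i < n, (T.st σ)^[τ i] (c 0) = c i
  dis : ∀ i < n, T.Disj σ (c 0) (τ i)

theorem exists_tm (hrel : ∀ i < n, T.Rel σ (c 0) (c i)) : ∃ τ, Tm T σ c n τ := by
  have h : ∀ i, ∃ t, i < n → t < per T σ (c 0) ∧ (T.st σ)^[t] (c 0) = c i ∧ T.Disj σ (c 0) t := by
    intro i
    by_cases hi : i < n
    · obtain ⟨-, -, t, h1, h2, h3⟩ := hrel i hi
      exact ⟨t, fun _ => ⟨h1, h2, h3⟩⟩
    · exact ⟨0, fun h => absurd h hi⟩
  choose τ hτ using h
  exact ⟨τ, fun i hi => (hτ i hi).1, fun i hi => (hτ i hi).2.1, fun i hi => (hτ i hi).2.2⟩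

theorem Tm.sa_eq (h : Tm T σ c n τ) {i : ℕ} (hi : i < n) : sa T σ (c 0) (τ i) = T.src (c i) := by
  unfold sa
  rw [h.it i hi]

section times

variable (hR : H659.Ring T π O σ c n) (h : Tm T σ c n τ)
include hR h

theorem Tm.first {i : ℕ} (hi : i + 1 < n) : sa T σ (c 0) (τ i + 1) = T.src (c (i + 1)) := by
  have hm : T.Mi σ ((T.st σ)^[τ i] (c 0)) := by
    rw [h.it i (by omega)]
    exact hR.mi i (by omega)
  rw [sa_succ_mi T hm, h.it i (by omega), hR.next i hi]

theorem Tm.pos {i : ℕ} (hi : i < n) (h0 : 1 ≤ i) : 1 ≤ τ i := by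
  by_contra h1
  have h2 : τ i = 0 := by omega
  have h3 := h.it i hi
  rw [h2, iterate_zero, id] at h3
  have := hR.inj 0 (by omega) i hi (by rw [h3])
  omega

theorem Tm.lt_succ {i : ℕ} (hi : i + 1 < n) : τ i < τ (i + 1) := by
  by_contra h1
  push Not at h1
  have h2 := h.pos hR hi (by omega)
  have h3 := h.dis i (by omega) (τ (i + 1)) (τ i + 1) h2 h1 (by omega) (h.lt i (by omega))
  apply h3
  have e1 := h.first hR hi
  have e2 := h.sa_eq hi
  unfold sa at e1 e2
  rw [e1, e2]

theorem Tm.mono {i j : ℕ} (hij : i < j) (hj : j < n) : τ i < τ j := by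
  induction j with
  | zero => omega
  | succ j ih =>
    have h1 := h.lt_succ hR hj
    rcases Nat.lt_succ_iff_lt_or_eq.1 hij with h2 | h2
    · exact (ih h2 (by omega)).trans h1
    · rw [h2]; exact h1

theorem Tm.mono' {i j : ℕ} (hij : i ≤ j) (hj : j < n) : τ i ≤ τ j := by
  rcases hij.lt_or_eq with h1 | h1
  · exact (h.mono hR h1 hj).le
  · rw [h1]

/-- The visits of a vertex of the cycle. -/
theorem Tm.visit {i t : ℕ} (hi : i < n) (h0 : 1 ≤ i) (ht : 1 ≤ t) (ht' : t ≤ per T σ (c 0))
    (hv : sa T σ (c 0) t = T.src (c i)) : τ (i - 1) < t ∧ t ≤ τ i := by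
  constructor
  · by_contra h1
    push Not at h1
    have h2 := h.dis (i - 1) (by omega) t (τ (i - 1) + 1) ht h1 (by omega) (h.lt _ (by omega))
    apply h2
    have e1 := h.first hR (i := i - 1) (by omega)
    rw [show i - 1 + 1 = i by omega] at e1
    exact hv.trans e1.symm
  · by_contra h1
    push Not at h1
    exact h.dis i hi (τ i) t (h.pos hR hi h0) le_rfl h1 ht' ((h.sa_eq hi).trans hv.symm)

end times

/-! ### chains -/

theorem chain_append {a b e : ℕ} (h1 : a ≤ b) (h2 : b ≤ e) :
    H659.chain c a e = H659.chain c a b ++ H659.chain c b e := by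
  unfold H659.chain
  obtain ⟨x, rfl⟩ := Nat.exists_eq_add_of_le h1
  obtain ⟨y, rfl⟩ := Nat.exists_eq_add_of_le h2
  rw [show a + x + y - a = x + y by omega, show a + x - a = x by omega,
    show a + x + y - (a + x) = y by omega, List.range_add, List.map_append, List.map_map]
  congr 1
  apply List.map_congr_left
  intro i _
  simp only [comp_apply]
  rw [add_assoc]

theorem chain_self {a : ℕ} : H659.chain c a a = [] := by
  unfold H659.chain
  simp

/-- The arch of an excursion whose ends are on the cycle. -/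
theorem arch_of_ring (hinj : InjOff π O) (hR : H659.Ring T π O σ c n) {d g : D}
    (hd : Start T1 σ1 d) (hdO : T1.src d = O) {iy ix : ℕ} (hg : T1.Rel σ1 d g)
    (hgO : T1.apex g = O) (hyx : iy ≤ ix) (hix : ix < n)
    (hy : T.apex g = T.src (c iy)) (hx : T.src d = T.src (c ix))
    (hcol : ∀ v, π v ≠ O → σ v = σ1 (π v)) (hO : σ (T.src (c 0)) = σ1 O) :
    Arch T T1 π O σ1 σ d g (H659.chain c iy ix) := by
  have hc : ∀ i < n, σ (T.src (c i)) = σ1 O := by
    intro i hi
    obtain ⟨k, hk⟩ := hR.str i hi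
    rw [← hk, T.col_src_iter σ, hO]
  refine ⟨hinj, hcol, hg, hdO, by rw [← hdO]; exact hd.2, hgO, ?_, ?_, ?_, ?_, ?_, ?_, ?_, ?_⟩
  · rw [hx]; exact hc ix hix
  · rw [hy]; exact hc iy (by omega)
  · intro e he
    obtain ⟨i, h1, h2, rfl⟩ := H659.mem_chain.1 he
    exact hR.mi i (by omega)
  · intro e he
    obtain ⟨i, h1, h2, rfl⟩ := H659.mem_chain.1 he
    exact hc i (by omega)
  · intro e he
    obtain ⟨i, h1, h2, rfl⟩ := H659.mem_chain.1 he
    exact (hR.fib (i := i) (by omega)).1
  · unfold H659.chain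
    rw [List.map_map, List.nodup_map_iff_inj_on List.nodup_range]
    intro i hi j hj hij
    rw [List.mem_range] at hi hj
    have := hR.inj (iy + i) (by omega) (iy + j) (by omega) hij
    omega
  · intro hh
    rw [List.mem_map] at hh
    obtain ⟨e, he, he2⟩ := hh
    obtain ⟨i, h1, h2, rfl⟩ := H659.mem_chain.1 he
    rw [hx] at he2
    have := hR.inj i (by omega) ix hix he2
    omega
  · unfold H659.chain
    refine H659.chain_range (R := fun a b => T.src b = T.apex a) ?_ ?_ ?_ ?_
    · intro h0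
      rw [hx, hy, show ix = iy by omega]
    · intro _; rw [hy]; rfl
    · intro i hi
      exact hR.next (iy + i) (by omega)
    · intro hm
      have h1 := hR.next (iy + (ix - iy - 1)) (by omega)
      rw [show iy + (ix - iy - 1) + 1 = ix by omega] at h1
      rw [hx]; exact h1

/-! ### the near window -/

/-- Sources of the strand at the times in `[a, b]`. -/
def VB (T : Tri V D) (σ : V → Bool) (o : D) (a b : ℕ) : Set V :=
  {v | ∃ t, a ≤ t ∧ t ≤ b ∧ sa T σ o t = v}

variable {ι : Type*} {F : ι → Set V} {r : ι → V} {b1 b2 w : ι} {m1 m2 t2 t1 q : ℕ}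

/-- The data of a near window `(t2, t1)`. -/
structure Win (T : Tri V D) (π : V → V1) (O : V1) (σ : V → Bool) (c : ℕ → D) (n : ℕ) (τ : ℕ → ℕ)
    (F : ι → Set V) (r : ι → V) (b1 b2 w : ι) (m1 m2 t2 t1 q : ℕ) : Prop where
  ring : H659.Ring T π O σ c n
  tm : Tm T σ c n τ
  coll : Coll T F r
  fibF : ∀ i, ∀ v ∈ F i, π v = O
  all : ∀ i : ι, i = b1 ∨ i = b2 ∨ i = w
  ne : b1 ≠ b2
  hm : m1 < m2
  ht : t2 < t1
  htp : t1 ≤ per T σ (c 0) + m1
  ht2 : t2 ≤ per T σ (c 0)
  F1 : F b1 = VB T σ (c 0) t1 (per T σ (c 0) + m1)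
  F2 : F b2 = VB T σ (c 0) m2 t2
  hqn : q < n
  hq1 : m2 ≤ τ q
  hq2 : τ q < t2
  near : ∀ t, t2 < t → t < t1 → sa T σ (c 0) t ∉ F w
  u0 : T.tgt ((T.st σ)^[t2] (c 0)) ∈ F w

section win

variable (h : Win T π O σ c n τ F r b1 b2 w m1 m2 t2 t1 q)
include h

theorem Win.q_pos : 1 ≤ q := by
  by_contra h0
  have h1 : q = 0 := by omega
  have h2 := h.hq1
  have h3 := h.tm.it q h.hqn
  have h4 := h.hm
  rw [h1] at h2 h3
  have h5 : τ 0 < per T σ (c 0) := h.tm.lt 0 h.ring.pos
  have h6 : (T.st σ)^[τ 0] (c 0) = (T.st σ)^[0] (c 0) := h3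
  have h7 := (iterate_eq_iterate_iff_of_lt_minimalPeriod (f := T.st σ) h5 (by
    change 0 < per T σ (c 0); omega)).1 h6
  omega

theorem Win.src_mem2 {i : ℕ} (hi : q ≤ i) (hin : i < n) :
    T.src (c i) ∈ F b2 ↔ i = q ∨ τ (i - 1) < t2 := by
  have hq0 := h.q_pos
  have a1 := h.hq1
  have a2 := h.hq2
  have a3 := h.hm
  have a4 := h.ht
  have a5 := h.ht2
  rw [h.F2]
  constructor
  · rintro ⟨t, e1, e2, e3⟩
    right
    have := (h.tm.visit h.ring hin (by omega) (t := t) (by omega) (by omega) e3).1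
    omega
  · rintro (rfl | h1)
    · exact ⟨τ i, a1, a2.le, h.tm.sa_eq hin⟩
    · rcases hi.eq_or_lt with rfl | h2
      · exact ⟨τ q, a1, a2.le, h.tm.sa_eq hin⟩
      · have h3 := h.tm.mono' h.ring (i := q) (j := i - 1) (by omega) (by omega)
        refine ⟨τ (i - 1) + 1, by omega, by omega, ?_⟩
        have := h.tm.first h.ring (i := i - 1) (by omega)
        rwa [show i - 1 + 1 = i by omega] at this

theorem Win.src_mem1 {i : ℕ} (hi : q ≤ i) (hin : i < n) :
    T.src (c i) ∈ F b1 ↔ t1 ≤ τ i := by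
  have hq0 := h.q_pos
  have a1 := h.hq1
  have a2 := h.hq2
  have a3 := h.hm
  have a4 := h.ht
  have a5 := h.ht2
  have a6 := h.tm.lt i hin
  constructor
  · intro hmem
    have hmem' := hmem
    rw [h.F1] at hmem'
    obtain ⟨t, e1, e2, e3⟩ := hmem'
    by_cases htp : t ≤ per T σ (c 0)
    · have := (h.tm.visit h.ring hin (by omega) (t := t) (by omega) htp e3).2
      omega
    · exfalso
      have e4 : sa T σ (c 0) (t - per T σ (c 0)) = T.src (c i) := by
        rw [← e3, ← sa_add_per T σ (c 0) (t - per T σ (c 0))]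
        congr 1
        omega
      rcases hi.eq_or_lt with rfl | h2
      · have h3 : T.src (c q) ∈ F b2 := (h.src_mem2 le_rfl hin).2 (Or.inl rfl)
        exact h.ne (h.coll.disj _ _ _ hmem h3)
      · have h3 := h.tm.mono' h.ring (i := q) (j := i - 1) (by omega) (by omega)
        have h4 := (h.tm.visit h.ring hin (by omega) (t := t - per T σ (c 0)) (by omega)
          (by omega) e4).1
        omega
  · intro h1
    rw [h.F1]
    exact ⟨τ i, h1, by omega, h.tm.sa_eq hin⟩

theorem Win.mono2 {i j : ℕ} (hi : q ≤ i) (hij : i ≤ j) (hj : j < n) (hm : T.src (c j) ∈ F b2) :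
    T.src (c i) ∈ F b2 := by
  rw [h.src_mem2 (hi.trans hij) hj] at hm
  rw [h.src_mem2 hi (by omega)]
  rcases hm with rfl | hm
  · left; omega
  · rcases hi.eq_or_lt with rfl | h2
    · exact Or.inl rfl
    · right
      have := h.tm.mono' h.ring (i := i - 1) (j := j - 1) (by omega) (by omega)
      omega

theorem Win.mono1 {i j : ℕ} (hi : q ≤ i) (hij : i ≤ j) (hj : j < n) (hm : T.src (c i) ∈ F b1) :
    T.src (c j) ∈ F b1 := by
  rw [h.src_mem1 hi (by omega)] at hm
  rw [h.src_mem1 (hi.trans hij) hj]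
  exact hm.trans (h.tm.mono' h.ring hij hj)

omit h in
/-- A vertex of the cycle which is not in the far sets. -/
def Near (T : Tri V D) (F : ι → Set V) (b1 b2 : ι) (c : ℕ → D) (i : ℕ) : Prop :=
  T.src (c i) ∉ F b1 ∧ T.src (c i) ∉ F b2

theorem Win.near_time {i : ℕ} (hi : q ≤ i) (hin : i < n) (hN : Near T F b1 b2 c i) :
    q < i ∧ t2 ≤ τ (i - 1) ∧ t2 < τ i ∧ τ i < t1 ∧ ∀ j, T.src (c i) ∉ F j := by
  obtain ⟨h1, h2⟩ := hN
  rw [h.src_mem1 hi hin] at h1
  rw [h.src_mem2 hi hin] at h2
  push Not at h1 h2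
  have h3 : q < i := by
    rcases hi.eq_or_lt with h4 | h4
    · exact absurd h4.symm h2.1
    · exact h4
  have h4 := h.tm.mono h.ring (i := i - 1) (j := i) (by omega) hin
  refine ⟨h3, h2.2, by omega, h1, ?_⟩
  intro j hj
  rcases h.all j with rfl | rfl | rfl
  · rw [h.src_mem1 hi hin] at hj; omega
  · rw [h.src_mem2 hi hin] at hj
    rcases hj with hj | hj
    · exact h2.1 hj
    · omega
  · refine h.near (τ i) (by omega) h1 ?_
    rw [h.tm.sa_eq hin]; exact hj

/-- The far black sets are black. -/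
theorem Win.black {v : V} {i : ι} (hi : i = b1 ∨ i = b2) (hv : v ∈ F i) :
    σ v = σ (T.src (c 0)) := by
  rcases hi with rfl | rfl
  · rw [h.F1] at hv
    obtain ⟨t, -, -, rfl⟩ := hv
    exact T.col_src_iter σ (c 0) t
  · rw [h.F2] at hv
    obtain ⟨t, -, -, rfl⟩ := hv
    exact T.col_src_iter σ (c 0) t

/-- Vertices on the other side of the strand lie in no far black set. -/
theorem Win.tgt_mem {t : ℕ} {i : ι} (hv : T.tgt ((T.st σ)^[t] (c 0)) ∈ F i) : i = w := by
  have hb0 : T.Bi σ (c 0) := (h.ring.mi 0 h.ring.pos).bi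
  rcases h.all i with hi | hi | hi
  · exfalso
    have := h.black (Or.inl hi) hv
    rw [T.col_tgt_iter σ] at this
    exact hb0 this.symm
  · exfalso
    have := h.black (Or.inr hi) hv
    rw [T.col_tgt_iter σ] at this
    exact hb0 this.symm
  · exact hi

/-- Walks between vertices on the other side of the strand near the window. -/
theorem Win.rwalk {t : ℕ} (ht : t2 ≤ t) : ∃ l,
    T.Walk (T.tgt ((T.st σ)^[t2] (c 0))) (T.tgt ((T.st σ)^[t] (c 0))) l ∧
    ∀ e' ∈ l, (σ (T.src e') = σ (T.tgt (c 0)) ∧ ∀ i, T.src e' ∈ F i → i = w) ∧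
      (σ (T.tgt e') = σ (T.tgt (c 0)) ∧ ∀ i, T.tgt e' ∈ F i → i = w) := by
  have hb0 : T.Bi σ (c 0) := (h.ring.mi 0 h.ring.pos).bi
  have hb : T.Bi σ ((T.st σ)^[t2] (c 0)) := (T.bi_iter t2).2 hb0
  have h1 := T.rw_walk hb (t - t2)
  rw [← iterate_add_apply, show t - t2 + t2 = t by omega] at h1
  refine ⟨_, h1, ?_⟩
  intro e' he'
  obtain ⟨k, -, e1, e2⟩ := T.rw_mem hb he'
  rw [← iterate_add_apply] at e1 e2
  rw [e1, e2]
  exact ⟨⟨T.col_tgt_iter σ (c 0) _, fun i hi => h.tgt_mem hi⟩,
    ⟨T.col_tgt_iter σ (c 0) _, fun i hi => h.tgt_mem hi⟩⟩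

/-- **A captured excursion with a near end.** It is captured in the world with the far sets frozen,
with the near part `L` of its closing chain. -/
theorem Win.captured (hC : Contr T T1 π) (hinj : InjOff π O) {σ2 : V → Bool}
    (hcol : ∀ v, π v ≠ O → σ v = σ1 (π v)) (hO : σ (T.src (c 0)) = σ1 O)
    (h2 : ∀ v, (∀ i, v ∉ F i) → σ2 v = σ v) (hb1 : σ2 (r b1) = σ1 O) (hb2 : σ2 (r b2) = σ1 O)
    (hw : σ2 (r w) ≠ σ1 O) {J : Set D} (hJ : ∀ β ∈ J, T.src β ∈ F w) {d g : D} {iy ix : ℕ}
    (hd : Start T1 σ1 d) (hdO : T1.src d = O) (hcap : Cap T1 J σ1 d) (hg : T1.Rel σ1 d g)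
    (hgO : T1.apex g = O) (hqy : q ≤ iy) (hyx : iy ≤ ix) (hix : ix < n)
    (hy : T.apex g = T.src (c iy)) (hx : T.src d = T.src (c ix))
    (hN : Near T F b1 b2 c iy ∨ Near T F b1 b2 c ix) :
    ∃ j j', iy ≤ j ∧ j ≤ j' ∧ j' ≤ ix ∧ (∀ i, iy ≤ i → i < j → t1 > τ i) ∧
      (∀ i, iy ≤ i → i < ix → (i < j ∨ j' ≤ i) ∨ (τ i < t2 ∨ t1 ≤ τ i)) ∧
      Captured (tmap T (H532.col F r) h.coll.fib) T1 π O σ1 σ2 d g
        (H659.chain c iy j ++ H659.chain c j' ix) := by
  classical
  have hb0 : T.Bi σ (c 0) := (h.ring.mi 0 h.ring.pos).bi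
  have hR := h.ring
  have hA := arch_of_ring hinj hR hd hdO hg hgO hyx hix hy hx hcol hO
  have htO : σ (T.tgt (c 0)) ≠ σ1 O := by rw [← hO]; exact hb0.symm
  have hcw : ∀ b : ι, b = b1 ∨ b = b2 → σ2 (r b) = σ1 O := by
    rintro b (rfl | rfl) <;> assumption
  -- walks
  have hwalk : ∀ i, i < n → t2 ≤ τ i → ∃ l, (tmap T (H532.col F r) h.coll.fib).Walk
      (H532.col F r (T.tgt d)) (H532.col F r (T.tgt (c i))) l ∧ ∀ e' ∈ l,
      σ2 (H532.col F r (T.src e')) ≠ σ1 O ∧ σ2 (H532.col F r (T.tgt e')) ≠ σ1 O := by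
    intro i hi hti
    obtain ⟨l, hl, hl2⟩ := h.rwalk hti
    rw [h.tm.it i hi] at hl
    have hA' : Arch T T1 π O σ1 σ d g ([] ++ H659.chain c iy ix ++ []) := by
      rw [List.nil_append, List.append_nil]; exact hA
    refine near_walk hC hA' h.coll h.fibF h2 hw hcap hJ h.u0 hl ?_
    intro e' he'
    obtain ⟨⟨a1, a2⟩, a3, a4⟩ := hl2 e' he'
    exact ⟨⟨by rw [a1]; exact htO, a2⟩, by rw [a3]; exact htO, a4⟩
  have htgt : ∀ i, i < n → ∀ i', T.tgt (c i) ∈ F i' → i' = w := by
    intro i hi i' hi'
    rw [← h.tm.it i hi] at hi'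
    exact h.tgt_mem hi'
  by_cases hNy : Near T F b1 b2 c iy
  · -- the landing vertex is near
    obtain ⟨j, hj1, hj2, hj3, hj4⟩ : ∃ j, iy ≤ j ∧ j ≤ ix ∧
        (∀ i, iy ≤ i → i < j → T.src (c i) ∉ F b1) ∧
        (j < ix → T.src (c j) ∈ F b1) := by
      by_cases hex : ∃ j, iy ≤ j ∧ j ≤ ix ∧ T.src (c j) ∈ F b1
      · refine ⟨Nat.find hex, (Nat.find_spec hex).1, (Nat.find_spec hex).2.1, ?_,
          fun _ => (Nat.find_spec hex).2.2⟩
        intro i h1 h3 h4
        have := Nat.find_spec hex
        exact Nat.find_min hex h3 ⟨h1, by omega, h4⟩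
      · refine ⟨ix, hyx, le_rfl, ?_, fun hh => absurd hh (lt_irrefl _)⟩
        intro i h1 h3 h4
        exact hex ⟨i, h1, h3.le, h4⟩
    have hn2 : ∀ i, iy ≤ i → i < n → T.src (c i) ∉ F b2 := by
      intro i h1 h3 h4
      exact hNy.2 (h.mono2 hqy h1 h3 h4)
    have hnear : ∀ i, iy ≤ i → i < j → Near T F b1 b2 c i := fun i h1 h3 =>
      ⟨hj3 i h1 h3, hn2 i h1 (by omega)⟩
    have hfar : ∀ i, j ≤ i → i ≤ ix → (j < ix ∨ T.src (c ix) ∈ F b1) → T.src (c i) ∈ F b1 := by
      intro i h1 h3 h4
      rcases h4 with h4 | h4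
      · exact h.mono1 (by omega) h1 (by omega) (hj4 h4)
      · have h5 : j = ix ∨ j < ix := by omega
        rcases h5 with h5 | h5
        · rw [show i = ix by omega]; exact h4
        · exact h.mono1 (by omega) h1 (by omega) (hj4 h5)
    have hor : ∀ i, iy ≤ i → i ≤ ix → ∀ i', T.src (c i) ∈ F i' → i' = b1 := by
      intro i h1 h3 i' hi'
      rcases h.all i' with h4 | h4 | h4
      · exact h4
      · rw [h4] at hi'
        exact absurd hi' (hn2 i h1 (by omega))
      · exfalso
        by_cases h5 : T.src (c i) ∈ F b1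
        · have h6 := h.coll.disj _ _ _ h5 hi'
          have h7 := h.tgt_mem h.u0
          have h8 := h.black (Or.inl rfl) h5
          -- `b1 = w` is impossible: the class of `w` contains a vertex of the other colour
          rw [h4] at h6
          have h9 := h.u0
          rw [← h6] at h9
          have h10 := h.black (Or.inl rfl) h9
          rw [T.col_tgt_iter σ] at h10
          exact hb0 h10.symm
        · exact (h.near_time (by omega) (by omega) ⟨h5, hn2 i h1 (by omega)⟩).2.2.2.2 _ hi'
    refine ⟨j, ix, hj1, hj2, le_rfl, ?_, ?_, ?_⟩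
    · intro i h1 h3
      exact (h.near_time (by omega) (by omega) (hnear i h1 h3)).2.2.2.1
    · intro i h1 h3
      by_cases h4 : i < j
      · exact Or.inl (Or.inl h4)
      · right; right
        exact (h.src_mem1 (by omega) (by omega)).1 (hfar i (by omega) (by omega) (Or.inl (by omega)))
    · rw [chain_self]
      have hA' : Arch T T1 π O σ1 σ d g (H659.chain c iy j ++ H659.chain c j ix ++ []) := by
        rw [List.append_nil, ← chain_append hj1 hj2]; exact hA
      refine Arch.near hC hA' h.coll h.fibF h2 (hcw b1 (Or.inl rfl)) hw ?_ ?_ ?_ ?_ ?_ ?_ ?_ ?_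
      · intro e he
        obtain ⟨i, h1, h3, rfl⟩ := H659.mem_chain.1 he
        refine ⟨hfar i h1 h3.le (Or.inl (by omega)), ?_⟩
        rw [← hR.next i (by omega)]
        exact hfar (i + 1) (by omega) (by omega) (Or.inl (by omega))
      · intro e he i' hi'
        rw [List.append_nil] at he
        obtain ⟨i, h1, h3, rfl⟩ := H659.mem_chain.1 he
        exact hor i h1 (by omega) i' hi'
      · intro e he i' hi'
        rw [List.append_nil] at he
        obtain ⟨i, h1, h3, rfl⟩ := H659.mem_chain.1 he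
        rw [← hR.next i (by omega)] at hi'
        exact hor (i + 1) (by omega) (by omega) i' hi'
      · intro e he i' hi'
        rw [List.append_nil] at he
        obtain ⟨i, h1, h3, rfl⟩ := H659.mem_chain.1 he
        exact htgt i (by omega) i' hi'
      · intro i' hi'
        rw [hx] at hi'
        exact hor ix hyx le_rfl i' hi'
      · intro i' hi'
        rw [hy] at hi'
        exact hor iy le_rfl hyx i' hi'
      · -- distinct sources
        rw [List.append_nil, List.map_append, List.nodup_append]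
        refine ⟨?_, by simp, ?_⟩
        · unfold H659.chain
          rw [List.map_map, List.nodup_map_iff_inj_on List.nodup_range]
          intro i hi k hk hik
          rw [List.mem_range] at hi hk
          simp only [comp_apply] at hik
          have e1 := (h.near_time (by omega) (by omega) (hnear (iy + i) (by omega) (by omega))).2.2.2.2
          have e2 := (h.near_time (by omega) (by omega) (hnear (iy + k) (by omega) (by omega))).2.2.2.2
          rw [col_not_mem e1, col_not_mem e2] at hik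
          have := hR.inj (iy + i) (by omega) (iy + k) (by omega) hik
          omega
        · intro a ha b' hb' hab
          rw [List.mem_map] at ha
          obtain ⟨e, he, rfl⟩ := ha
          obtain ⟨i, h1, h3, rfl⟩ := H659.mem_chain.1 he
          simp only [List.map_cons, List.map_nil, List.mem_singleton] at hb'
          rw [hb', hx] at hab
          have e1 := (h.near_time (by omega) (by omega) (hnear i h1 h3)).2.2.2.2
          rcases h.coll.eq_or hab with h4 | ⟨i', h4, -⟩
          · have := hR.inj i (by omega) ix hix h4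
            omega
          · exact e1 i' h4
      · intro e he
        rw [List.append_nil] at he
        obtain ⟨i, h1, h3, rfl⟩ := H659.mem_chain.1 he
        exact hwalk i (by omega) (h.near_time (by omega) (by omega) (hnear i h1 h3)).2.2.1.le
  · -- the landing vertex is far, the start is near
    have hNx : Near T F b1 b2 c ix := hN.resolve_left hNy
    have hn1 : ∀ i, q ≤ i → i ≤ ix → T.src (c i) ∉ F b1 := by
      intro i h1 h3 h4
      exact hNx.1 (h.mono1 h1 h3 hix h4)
    have hy2 : T.src (c iy) ∈ F b2 := by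
      by_contra h4
      exact hNy ⟨hn1 iy hqy hyx, h4⟩
    obtain ⟨j, hj1, hj2, hj3, hj4⟩ : ∃ j, iy ≤ j ∧ j < ix ∧ T.src (c j) ∈ F b2 ∧
        ∀ i, j < i → i ≤ ix → T.src (c i) ∉ F b2 := by
      have hPi : (fun t => t ≤ ix ∧ T.src (c t) ∈ F b2) iy := ⟨hyx, hy2⟩
      have h3 := Nat.findGreatest_spec (P := fun t => t ≤ ix ∧ T.src (c t) ∈ F b2) hyx hPi
      refine ⟨Nat.findGreatest (fun t => t ≤ ix ∧ T.src (c t) ∈ F b2) ix,
        Nat.le_findGreatest hyx hPi, ?_, h3.2, ?_⟩
      · rcases h3.1.lt_or_eq with h4 | h4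
        · exact h4
        · exfalso
          apply hNx.2
          have := h3.2
          rwa [h4] at this
      · intro i h4 h5 h6
        exact Nat.findGreatest_is_greatest (P := fun t => t ≤ ix ∧ T.src (c t) ∈ F b2) h4 h5 ⟨h5, h6⟩
    have hnear : ∀ i, j < i → i ≤ ix → Near T F b1 b2 c i := fun i h1 h3 =>
      ⟨hn1 i (by omega) h3, hj4 i h1 h3⟩
    have hfar : ∀ i, q ≤ i → i ≤ j → T.src (c i) ∈ F b2 := fun i h1 h3 =>
      h.mono2 h1 h3 (by omega) hj3
    have hor : ∀ i, q ≤ i → i ≤ ix → ∀ i', T.src (c i) ∈ F i' → i' = b2 := by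
      intro i h1 h3 i' hi'
      rcases h.all i' with h4 | h4 | h4
      · rw [h4] at hi'
        exact absurd hi' (hn1 i h1 h3)
      · exact h4
      · exfalso
        by_cases h5 : i ≤ j
        · have h6 := h.coll.disj _ _ _ (hfar i h1 h5) hi'
          rw [h4] at h6
          have h9 := h.u0
          rw [← h6] at h9
          have h10 := h.black (Or.inr rfl) h9
          rw [T.col_tgt_iter σ] at h10
          exact hb0 h10.symm
        · exact (h.near_time (by omega) (by omega) (hnear i (by omega) h3)).2.2.2.2 _ hi'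
    have htime : ∀ i, j < i → i ≤ ix → t2 ≤ τ (i - 1) ∧ t2 < τ i ∧ τ i < t1 := by
      intro i h1 h3
      have := h.near_time (by omega) (by omega) (hnear i h1 h3)
      exact ⟨this.2.1, this.2.2.1, this.2.2.2.1⟩
    have hjt : t2 ≤ τ j := by
      have := (htime (j + 1) (by omega) (by omega)).1
      rwa [Nat.add_sub_cancel] at this
    refine ⟨iy, j, le_rfl, hj1, hj2.le, fun i h1 h3 => absurd h3 (by omega), ?_, ?_⟩
    · intro i h1 h3
      by_cases h4 : j ≤ i
      · exact Or.inl (Or.inr h4)
      · right; left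
        have h5 := hfar (i + 1) (by omega) (by omega)
        rw [h.src_mem2 (by omega) (by omega)] at h5
        rcases h5 with h5 | h5
        · omega
        · rwa [Nat.add_sub_cancel] at h5
    · rw [chain_self]
      have hA' : Arch T T1 π O σ1 σ d g ([] ++ H659.chain c iy j ++ H659.chain c j ix) := by
        rw [List.nil_append, ← chain_append hj1 hj2.le]; exact hA
      refine Arch.near hC hA' h.coll h.fibF h2 (hcw b2 (Or.inr rfl)) hw ?_ ?_ ?_ ?_ ?_ ?_ ?_ ?_
      · intro e he
        obtain ⟨i, h1, h3, rfl⟩ := H659.mem_chain.1 he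
        refine ⟨hfar i (by omega) h3.le, ?_⟩
        rw [← hR.next i (by omega)]
        exact hfar (i + 1) (by omega) (by omega)
      · intro e he i' hi'
        rw [List.nil_append] at he
        obtain ⟨i, h1, h3, rfl⟩ := H659.mem_chain.1 he
        exact hor i (by omega) (by omega) i' hi'
      · intro e he i' hi'
        rw [List.nil_append] at he
        obtain ⟨i, h1, h3, rfl⟩ := H659.mem_chain.1 he
        rw [← hR.next i (by omega)] at hi'
        exact hor (i + 1) (by omega) (by omega) i' hi'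
      · intro e he i' hi'
        rw [List.nil_append] at he
        obtain ⟨i, h1, h3, rfl⟩ := H659.mem_chain.1 he
        exact htgt i (by omega) i' hi'
      · intro i' hi'
        rw [hx] at hi'
        exact hor ix (by omega) le_rfl i' hi'
      · intro i' hi'
        rw [hy] at hi'
        exact hor iy hqy hyx i' hi'
      · rw [List.nil_append, List.map_append, List.nodup_append]
        refine ⟨?_, by simp, ?_⟩
        · unfold H659.chain
          rw [List.map_map, List.nodup_map_iff_inj_on List.nodup_range]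
          intro i hi k hk hik
          rw [List.mem_range] at hi hk
          simp only [comp_apply] at hik
          rcases h.coll.eq_or hik with h4 | ⟨i', h4, h5⟩
          · have := hR.inj (j + i) (by omega) (j + k) (by omega) h4
            omega
          · have e1 : i = 0 := by
              by_contra h6
              exact (h.near_time (by omega) (by omega) (hnear (j + i) (by omega)
                (by omega))).2.2.2.2 _ h4
            have e2 : k = 0 := by
              by_contra h6
              exact (h.near_time (by omega) (by omega) (hnear (j + k) (by omega)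
                (by omega))).2.2.2.2 _ h5
            omega
        · intro a ha b' hb' hab
          rw [List.mem_map] at ha
          obtain ⟨e, he, rfl⟩ := ha
          obtain ⟨i, h1, h3, rfl⟩ := H659.mem_chain.1 he
          simp only [List.map_cons, List.map_nil, List.mem_singleton] at hb'
          rw [hb', hx] at hab
          have e1 := (h.near_time (by omega) (by omega) hNx).2.2.2.2
          rcases h.coll.eq_or hab with h4 | ⟨i', -, h4⟩
          · have := hR.inj i (by omega) ix hix h4
            omega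
          · exact e1 i' h4
      · intro e he
        rw [List.nil_append] at he
        obtain ⟨i, h1, h3, rfl⟩ := H659.mem_chain.1 he
        refine hwalk i (by omega) ?_
        rcases h1.eq_or_lt with rfl | h4
        · exact hjt
        · exact (htime i h4 (by omega)).2.1.le

end win

end Vale.Agent.P148.R2.H126
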